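import Vale.Agent.P363.H868.Actions
import Vale.Agent.P363.H979.CI.Defs

/-! Action of the symmetries on the amplitudes of tensor states. -/

namespace Vale.Agent.P363.H868

open MeasureTheory Filter Topology
open Vale.Agent.P363.Stmt Vale.Agent.P363.H382
open Vale.Agent.P363.R.Top (orb)
open Vale.Agent.P363.H979.CI (Ten SO)
open scoped ComplexConjugate

set_option linter.unusedSectionVars false

noncomputable section

variable {N : ℕ}

/-- matrix of the action of `A` on the five orbitals: `orb a (A x) = ∑ b, Mrot A a b * orb b x`. -/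
def Mrot (A : R3 ≃ₗᵢ[ℝ] R3) : Fin 5 → Fin 5 → ℝ :=
  ![![1, 0, 0, 0, 0], ![0, 1, 0, 0, 0],
    ![0, 0, mat A 0 0, mat A 0 1, mat A 0 2],
    ![0, 0, mat A 1 0, mat A 1 1, mat A 1 2],
    ![0, 0, mat A 2 0, mat A 2 1, mat A 2 2]]

theorem coord_rot (A : R3 ≃ₗᵢ[ℝ] R3) (x : R3) (j : Fin 3) :
    (A x) j = mat A j 0 * x 0 + mat A j 1 * x 1 + mat A j 2 * x 2 := by
  have h1 : A x = ∑ l, x l • A (e3 l) := by
    conv_lhs => rw [e3_expand x]
    rw [map_sum]
    simp only [map_smul]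
  have h2 : (A x) j = ∑ l, x l * (A (e3 l)) j := by
    rw [h1]
    simp
  rw [h2, Fin.sum_univ_three]
  unfold mat
  ring

theorem orb_rot (A : R3 ≃ₗᵢ[ℝ] R3) (a : Fin 5) (x : R3) :
    orb a (A x) = ∑ b, Mrot A a b * orb b x := by
  fin_cases a <;>
    simp [Fin.sum_univ_succ, Mrot, orb, coord_rot] <;> ring

/-- amplitude of a tensor state. -/
def tamp (c : Ten N) (s : Fin N → Fin 2) (x : Conf N) : ℂ :=
  ∑ a : Fin N → Fin 5, c (fun i => (a i, s i)) * ∏ i, (orb (a i) (x i) : ℂ)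

/-- action of a matrix on tensors. -/
def rotT (M : Fin 5 → Fin 5 → ℝ) (c : Ten N) : Ten N := fun J =>
  ∑ a : Fin N → Fin 5, ((∏ i, M (a i) (J i).1 : ℝ) : ℂ) * c (fun i => (a i, (J i).2))

/-- action of a spin permutation on tensors. -/
def flipT (τ : Equiv.Perm (Fin 2)) (c : Ten N) : Ten N := fun J => c fun i => ((J i).1, τ (J i).2)

/-- action of a spin phase on tensors. -/
def phT (ζ : Fin 2 → ℂ) (c : Ten N) : Ten N := fun J => (∏ i, ζ (J i).2) * c J

theorem tamp_rot (A : R3 ≃ₗᵢ[ℝ] R3) (c : Ten N) (s : Fin N → Fin 2) (x : Conf N) :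
    tamp c s (rotE A x) = tamp (rotT (Mrot A) c) s x := by
  unfold tamp rotT
  have h1 : ∀ a : Fin N → Fin 5, ∏ i, (orb (a i) (rotE A x i) : ℂ) =
      ∑ b : Fin N → Fin 5, (∏ i, (Mrot A (a i) (b i) : ℂ)) * ∏ i, (orb (b i) (x i) : ℂ) := by
    intro a
    have h2 : ∀ i, (orb (a i) (rotE A x i) : ℂ) =
        ∑ b : Fin 5, (Mrot A (a i) b : ℂ) * (orb b (x i) : ℂ) := by
      intro i
      rw [rotE_apply, orb_rot]
      push_cast
      rfl
    simp only [h2]
    rw [Finset.prod_univ_sum, Fintype.piFinset_univ]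
    exact Finset.sum_congr rfl fun b _ => Finset.prod_mul_distrib
  simp only [h1, Finset.mul_sum, Finset.sum_mul]
  rw [Finset.sum_comm]
  refine Finset.sum_congr rfl fun b _ => Finset.sum_congr rfl fun a _ => ?_
  push_cast
  ring

theorem tamp_flip (τ : Equiv.Perm (Fin 2)) (c : Ten N) (s : Fin N → Fin 2) (x : Conf N) :
    tamp c (τ ∘ s) x = tamp (flipT τ c) s x := rfl

theorem tamp_phase (ζ : Fin 2 → ℂ) (c : Ten N) (s : Fin N → Fin 2) (x : Conf N) :
    spinPhase ζ s * tamp c s x = tamp (phT ζ c) s x := by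
  unfold tamp phT spinPhase
  rw [Finset.mul_sum]
  exact Finset.sum_congr rfl fun a _ => by ring

theorem tamp_add (c d : Ten N) (s : Fin N → Fin 2) (x : Conf N) :
    tamp (c + d) s x = tamp c s x + tamp d s x := by
  unfold tamp
  rw [← Finset.sum_add_distrib]
  exact Finset.sum_congr rfl fun a _ => by rw [Pi.add_apply, add_mul]

theorem tamp_smul (z : ℂ) (c : Ten N) (s : Fin N → Fin 2) (x : Conf N) :
    tamp (z • c) s x = z * tamp c s x := by
  unfold tamp
  rw [Finset.mul_sum]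
  exact Finset.sum_congr rfl fun a _ => by rw [Pi.smul_apply, smul_eq_mul, mul_assoc]

theorem tamp_sum {ι : Type*} (t : Finset ι) (c : ι → Ten N) (s : Fin N → Fin 2) (x : Conf N) :
    tamp (∑ k ∈ t, c k) s x = ∑ k ∈ t, tamp (c k) s x := by
  unfold tamp
  rw [Finset.sum_comm]
  exact Finset.sum_congr rfl fun a _ => by rw [Finset.sum_apply, Finset.sum_mul]

end

end Vale.Agent.P363.H868
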