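import Vale.Agent.P363.Stmt

/-! A triple of functions on `ℝ³` which transforms like a vector under all linear isometries
is radial times `x / |x|`. -/

namespace Vale.Agent.P363.H868

open MeasureTheory Filter Topology Metric
open Vale.Agent.P363.Stmt (R3)

noncomputable section

/-- ball average of radius `1/(n+1)`. -/
def avg (f : R3 → ℂ) (n : ℕ) (x : R3) : ℂ := ⨍ y in closedBall x (1 / ((n : ℝ) + 1)), f y

theorem avg_comp (f : R3 → ℂ) (n : ℕ) (A : R3 ≃ₗᵢ[ℝ] R3) (x : R3) :
    avg f n (A x) = avg (fun y => f (A y)) n x := by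
  unfold avg
  rw [setAverage_eq, setAverage_eq]
  have hm : MeasurePreserving A volume volume := A.measurePreserving
  have hp : A ⁻¹' (closedBall (A x) (1 / ((n : ℝ) + 1))) = closedBall x (1 / ((n : ℝ) + 1)) := by
    rw [A.preimage_closedBall, A.symm_apply_apply]
  have h1 := hm.setIntegral_preimage_emb A.toHomeomorph.measurableEmbedding f
    (closedBall (A x) (1 / ((n : ℝ) + 1)))
  rw [hp] at h1
  have h2 := hm.measure_preimage_emb A.toHomeomorph.measurableEmbedding
    (closedBall (A x) (1 / ((n : ℝ) + 1)))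
  rw [hp] at h2
  rw [← h1]
  simp only [Measure.real, h2]

theorem avg_congr {f f' : R3 → ℂ} (h : f =ᵐ[volume] f') (n : ℕ) (x : R3) :
    avg f n x = avg f' n x := by
  unfold avg
  exact setAverage_congr_fun measurableSet_closedBall (h.mono fun y hy _ => hy)

theorem avg_sum {c : Fin 3 → ℂ} {f : Fin 3 → R3 → ℂ} (hf : ∀ j, LocallyIntegrable (f j) volume)
    (n : ℕ) (x : R3) :
    avg (fun y => ∑ k, c k * f k y) n x = ∑ k, c k * avg (f k) n x := by
  unfold avg
  simp only [setAverage_eq]
  rw [integral_finsetSum]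
  · simp only [integral_const_mul, Finset.smul_sum, Complex.real_smul]
    exact Finset.sum_congr rfl fun k _ => by ring
  · intro k _
    exact ((hf k).integrableOn_isCompact (isCompact_closedBall _ _)).const_mul _

/-- the bilinear version. -/
def bav (f : Fin 3 → R3 → ℂ) (n : ℕ) (e x : R3) : ℂ := ∑ j, (e j : ℂ) * avg (f j) n x

variable {d : Fin 3 → R3 → ℂ}

theorem coord_expand (A : R3 ≃ₗᵢ[ℝ] R3) (e : R3) (k : Fin 3) :
    (A e) k = ∑ j, e j * (A (EuclideanSpace.single j (1 : ℝ))) k := by
  have h1 : e = ∑ j, e j • (EuclideanSpace.single j (1 : ℝ) : R3) := by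
    ext k
    simp [Pi.single_apply]
  conv_lhs => rw [h1]
  simp [map_sum, map_smul]

theorem bav_equiv (hd : ∀ j, LocallyIntegrable (d j) volume)
    (hA : ∀ (A : R3 ≃ₗᵢ[ℝ] R3) (j : Fin 3), ∀ᵐ x : R3,
      ∑ k, ((A (EuclideanSpace.single j (1 : ℝ))) k : ℂ) * d k (A x) = d j x)
    (n : ℕ) (A : R3 ≃ₗᵢ[ℝ] R3) (e x : R3) : bav d n (A e) (A x) = bav d n e x := by
  unfold bav
  have h1 : ∀ j, avg (d j) n x
      = ∑ k, ((A (EuclideanSpace.single j (1 : ℝ))) k : ℂ) * avg (d k) n (A x) := by
    intro j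
    rw [← avg_congr (hA A j) n x]
    have hd' : ∀ k, LocallyIntegrable (fun y => d k (A y)) volume := by
      intro k
      rw [locallyIntegrable_iff]
      intro K hK
      have := (hd k).integrableOn_isCompact (hK.image A.continuous)
      have hm : MeasurePreserving A volume volume := A.measurePreserving
      rw [← hm.integrableOn_comp_preimage A.toHomeomorph.measurableEmbedding] at this
      have hp : A ⁻¹' (A '' K) = K := Set.preimage_image_eq _ A.injective
      rw [hp] at this
      exact this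
    rw [avg_sum (f := fun k y => d k (A y)) hd' n x]
    exact Finset.sum_congr rfl fun k _ => by rw [avg_comp]
  simp only [h1]
  have h2 : ∀ k, ((A e) k : ℂ) = ∑ j, (e j : ℂ) * ((A (EuclideanSpace.single j (1 : ℝ))) k : ℂ) := by
    intro k
    rw [coord_expand A e k]
    push_cast
    rfl
  simp only [h2, Finset.sum_mul, Finset.mul_sum]
  rw [Finset.sum_comm]
  exact Finset.sum_congr rfl fun j _ => Finset.sum_congr rfl fun k _ => by ring

theorem bav_add (n : ℕ) (e e' x : R3) : bav d n (e + e') x = bav d n e x + bav d n e' x := by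
  simp [bav, add_mul, Finset.sum_add_distrib]

theorem bav_smul (n : ℕ) (c : ℝ) (e x : R3) : bav d n (c • e) x = c * bav d n e x := by
  simp [bav, Finset.mul_sum, mul_assoc]

theorem bav_orth (hd : ∀ j, LocallyIntegrable (d j) volume)
    (hA : ∀ (A : R3 ≃ₗᵢ[ℝ] R3) (j : Fin 3), ∀ᵐ x : R3,
      ∑ k, ((A (EuclideanSpace.single j (1 : ℝ))) k : ℂ) * d k (A x) = d j x)
    (n : ℕ) {u x : R3} (h : inner ℝ u x = 0) : bav d n u x = 0 := by
  set A : R3 ≃ₗᵢ[ℝ] R3 := (Submodule.span ℝ {u})ᗮ.reflection with hAdef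
  have h1 : A u = -u := by
    apply Submodule.reflection_mem_subspace_orthogonalComplement_eq_neg
    rw [Submodule.orthogonal_orthogonal]
    exact Submodule.mem_span_singleton_self u
  have h2 : A x = x := by
    apply Submodule.reflection_mem_subspace_eq_self
    rw [Submodule.mem_orthogonal_singleton_iff_inner_right]
    exact h
  have h3 := bav_equiv hd hA n A u x
  rw [h1, h2] at h3
  have h4 : bav d n (-u) x = - bav d n u x := by
    have := bav_smul (d := d) n (-1) u x
    simpa using this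
  rw [h4] at h3
  have : (2 : ℂ) * bav d n u x = 0 := by linear_combination -h3
  simpa using this

theorem bav_formula (hd : ∀ j, LocallyIntegrable (d j) volume)
    (hA : ∀ (A : R3 ≃ₗᵢ[ℝ] R3) (j : Fin 3), ∀ᵐ x : R3,
      ∑ k, ((A (EuclideanSpace.single j (1 : ℝ))) k : ℂ) * d k (A x) = d j x)
    (n : ℕ) {x : R3} (hx : x ≠ 0) (e : R3) :
    bav d n e x = avg (d 2) n (EuclideanSpace.single 2 ‖x‖) * ((inner ℝ e x : ℝ) / ‖x‖ : ℝ) := by
  have hx' : ‖x‖ ≠ 0 := by simpa using hx
  set y : R3 := EuclideanSpace.single 2 ‖x‖ with hy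
  have hny : ‖x‖ = ‖y‖ := by simp [hy]
  -- `B(x,x) = B(y,y)`
  have h1 : bav d n x x = bav d n y y := by
    set A : R3 ≃ₗᵢ[ℝ] R3 := (Submodule.span ℝ {x - y})ᗮ.reflection with hAdef
    have h2 : A x = y := Submodule.reflection_sub hny
    rw [← bav_equiv hd hA n A x x, h2]
  have h2 : bav d n y y = ‖x‖ * avg (d 2) n y := by
    simp [bav, hy, Fin.sum_univ_three]
  have h3 : e = ((inner ℝ e x : ℝ) / ‖x‖ ^ 2) • x + (e - ((inner ℝ e x : ℝ) / ‖x‖ ^ 2) • x) := by
    simp
  have h4 : inner ℝ (e - ((inner ℝ e x : ℝ) / ‖x‖ ^ 2) • x) x = 0 := by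
    rw [inner_sub_left, inner_smul_left, real_inner_self_eq_norm_sq]
    simp
    field_simp
    ring
  rw [h3, bav_add, bav_orth hd hA n h4, add_zero, bav_smul, h1, h2, ← h3]
  push_cast
  have hc : (‖x‖ : ℂ) ≠ 0 := by exact_mod_cast hx'
  field_simp

theorem avg_stronglyMeasurable {f : R3 → ℂ} (hf : AEStronglyMeasurable f volume) (n : ℕ) :
    StronglyMeasurable (avg f n) := by
  obtain ⟨f', hf', hff'⟩ := hf
  have h1 : avg f n = avg f' n := by
    funext x; exact avg_congr hff' n x
  rw [h1]
  have h2 : avg f' n = fun x => (((volume : Measure R3).real (closedBall (0 : R3) (1 / ((n : ℝ) + 1))))⁻¹ : ℝ) •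
      ∫ y, (if dist y x ≤ 1 / ((n : ℝ) + 1) then f' y else 0) := by
    funext x
    unfold avg
    rw [setAverage_eq, Measure.real, Measure.real, Measure.addHaar_closedBall_center]
    congr 1
    rw [← integral_indicator measurableSet_closedBall]
    rfl
  rw [h2]
  refine StronglyMeasurable.fun_const_smul ?_ _
  apply StronglyMeasurable.integral_prod_right (f := fun x y : R3 =>
    if dist y x ≤ 1 / ((n : ℝ) + 1) then f' y else 0)
  apply StronglyMeasurable.ite
  · exact measurableSet_le (measurable_snd.dist measurable_fst) measurable_const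
  · exact hf'.comp_measurable measurable_snd
  · exact stronglyMeasurable_const

theorem avg_tendsto {f : R3 → ℂ} (hf : LocallyIntegrable f volume) :
    ∀ᵐ x : R3, Tendsto (fun n => avg f n x) atTop (𝓝 (f x)) := by
  have h := IsUnifLocDoublingMeasure.ae_tendsto_average (μ := (volume : Measure R3)) hf 1
  filter_upwards [h] with x hx
  refine hx (fun _ => x) (fun n : ℕ => 1 / ((n : ℝ) + 1)) ?_ ?_
  · rw [tendsto_nhdsWithin_iff]
    refine ⟨tendsto_one_div_add_atTop_nhds_zero_nat, Eventually.of_forall fun n => ?_⟩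
    simp only [Set.mem_Ioi]
    positivity
  · refine Eventually.of_forall fun n => ?_
    simp only [mem_closedBall, dist_self, one_mul]
    positivity

/-- **Vector functions are radial times `x/|x|`.** -/
theorem radial_of_equivariant (hd : ∀ j, LocallyIntegrable (d j) volume)
    (hA : ∀ (A : R3 ≃ₗᵢ[ℝ] R3) (j : Fin 3), ∀ᵐ x : R3,
      ∑ k, ((A (EuclideanSpace.single j (1 : ℝ))) k : ℂ) * d k (A x) = d j x) :
    ∃ g : ℝ → ℂ, Measurable g ∧ ∀ j, ∀ᵐ x : R3, d j x = g ‖x‖ * ((x j / ‖x‖ : ℝ) : ℂ) := by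
  set gn : ℕ → ℝ → ℂ := fun n r => avg (d 2) n (EuclideanSpace.single 2 r) with hgn
  have hmeas : ∀ n, StronglyMeasurable (gn n) := by
    intro n
    have h1 := avg_stronglyMeasurable (hd 2).aestronglyMeasurable n
    have h2 : Measurable (fun r : ℝ => (EuclideanSpace.single 2 r : R3)) := by
      have : Continuous (fun r : ℝ => (EuclideanSpace.single 2 r : R3)) := by
        have h3 : (fun r : ℝ => (EuclideanSpace.single 2 r : R3))
            = fun r : ℝ => r • (EuclideanSpace.single 2 (1 : ℝ) : R3) := by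
          funext r
          ext k
          simp
        rw [h3]
        fun_prop
      exact this.measurable
    exact h1.comp_measurable h2
  refine ⟨fun r => limUnder atTop (fun n => gn n r), (StronglyMeasurable.limUnder hmeas).measurable,
    fun j => ?_⟩
  have hlim : ∀ᵐ x : R3, ∀ k, Tendsto (fun n => avg (d k) n x) atTop (𝓝 (d k x)) := by
    rw [ae_all_iff]
    exact fun k => avg_tendsto (hd k)
  have hne : ∀ᵐ x : R3, x ≠ 0 := by
    have : (volume : Measure R3) {x | ¬ x ≠ 0} = 0 := by simp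
    exact this
  filter_upwards [hlim, hne] with x hx hx0
  have hx' : ‖x‖ ≠ 0 := by simpa using hx0
  -- `gn n ‖x‖` converges
  have h1 : ∀ n, gn n ‖x‖ = bav d n x x / ‖x‖ := by
    intro n
    rw [bav_formula hd hA n hx0 x, real_inner_self_eq_norm_sq]
    have hc : (‖x‖ : ℂ) ≠ 0 := by exact_mod_cast hx'
    simp only [hgn]
    push_cast
    field_simp
  have h2 : Tendsto (fun n => gn n ‖x‖) atTop (𝓝 ((∑ k, (x k : ℂ) * d k x) / ‖x‖)) := by
    simp only [h1, bav]
    apply Tendsto.div_const
    exact tendsto_finsetSum _ fun k _ => (hx k).const_mul _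
  have h3 : limUnder atTop (fun n => gn n ‖x‖) = (∑ k, (x k : ℂ) * d k x) / ‖x‖ := h2.limUnder_eq
  have h4 : ∀ n, avg (d j) n x = gn n ‖x‖ * ((x j / ‖x‖ : ℝ) : ℂ) := by
    intro n
    have h5 := bav_formula hd hA n hx0 (EuclideanSpace.single j (1 : ℝ))
    have h6 : bav d n (EuclideanSpace.single j (1 : ℝ)) x = avg (d j) n x := by
      simp [bav, apply_ite]
    rw [h6] at h5
    rw [h5]
    simp [hgn, EuclideanSpace.inner_single_left]
  have h7 : Tendsto (fun n => avg (d j) n x) atTop
      (𝓝 (limUnder atTop (fun n => gn n ‖x‖) * ((x j / ‖x‖ : ℝ) : ℂ))) := by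
    simp only [h4]
    rw [h3]
    exact h2.mul_const _
  exact tendsto_nhds_unique (hx j) h7

end

end Vale.Agent.P363.H868
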