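import Vale.Agent.P363.H868.Lift
import Vale.Agent.P363.H868.Radial
import Vale.Agent.P363.H382.Forms
import Vale.Agent.P363.R.B4.Ground

/-! Symmetries on the form domain `FS N` in the format of `R.B4.Ground` (`IsSym`), and the
consequences for the Dyson amplitude: radial form and vanishing by spin. -/

namespace Vale.Agent.P363.H868

open MeasureTheory Filter Topology
open Vale.Agent.P363.Stmt Vale.Agent.P363.R.Sob Vale.Agent.P363.H382
open Vale.Agent.P363.R.Top (dyson distSq inn)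
open Vale.Agent.P363.R.B4 (SForm qd Herm)
open scoped ContDiff ENNReal ComplexConjugate InnerProductSpace

set_option linter.unusedSectionVars false

noncomputable section

variable {N : ℕ}

/-- `act` is implemented by the unitary `W`, with inverse `inv`. -/
structure Inter (act inv : ElectronState N → ElectronState N) (W : LS N ≃ₗᵢ[ℂ] LS N) : Prop where
  hact : ∀ Ψ, JS (act Ψ) = W (JS Ψ)
  hinv : ∀ Ψ, JS (inv Ψ) = W.symm (JS Ψ)

theorem IsSym.toInter {w : Conf N → ℝ} {act inv : ElectronState N → ElectronState N}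
    {W : LS N ≃ₗᵢ[ℂ] LS N} (h : IsSym w act inv W) : Inter act inv W := ⟨h.hact, h.hinv⟩

/-- the linear map on the form domain. -/
def symF {act inv : ElectronState N → ElectronState N} {W : LS N ≃ₗᵢ[ℂ] LS N}
    (h : Inter act inv W) : FS N ≃ₗ[ℂ] FS N where
  toFun u := toFS (act (ofFS u))
  invFun u := toFS (inv (ofFS u))
  map_add' u v := JF_injective (by
    rw [map_add, JF_toFS, JF_toFS, JF_toFS, h.hact, h.hact, h.hact, JS_ofFS, JS_ofFS, JS_ofFS,
      map_add, map_add])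
  map_smul' c u := JF_injective (by
    rw [RingHom.id_apply, map_smul, JF_toFS, JF_toFS, h.hact, h.hact, JS_ofFS, JS_ofFS, map_smul,
      map_smul])
  left_inv u := JF_injective (by
    rw [JF_toFS, h.hinv, JS_ofFS, JF_toFS, h.hact, JS_ofFS, W.symm_apply_apply])
  right_inv u := JF_injective (by
    rw [JF_toFS, h.hact, JS_ofFS, JF_toFS, h.hinv, JS_ofFS, W.apply_symm_apply])

theorem symF_apply {act inv : ElectronState N → ElectronState N} {W : LS N ≃ₗᵢ[ℂ] LS N}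
    (h : Inter act inv W) (u : FS N) : symF h u = toFS (act (ofFS u)) := rfl

theorem JF_symF {act inv : ElectronState N → ElectronState N} {W : LS N ≃ₗᵢ[ℂ] LS N}
    (h : Inter act inv W) (u : FS N) : JF (symF h u) = W (JF u) := by
  rw [symF_apply, JF_toFS, h.hact, JS_ofFS]

theorem symF_toFS {act inv : ElectronState N → ElectronState N} {W : LS N ≃ₗᵢ[ℂ] LS N}
    (h : Inter act inv W) (Ψ : ElectronState N) : symF h (toFS Ψ) = toFS (act Ψ) :=
  JF_injective (by rw [JF_symF, JF_toFS, JF_toFS, h.hact])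

/-- polarisation: a linear map preserving the quadratic form of a hermitian form preserves it. -/
theorem form_inv {V : Type*} [NormedAddCommGroup V] [InnerProductSpace ℂ V] {B : SForm V}
    (hB : Herm B) (U : V ≃ₗ[ℂ] V) (hq : ∀ x, qd B (U x) = qd B x) (x y : V) :
    B (U x) (U y) = B x y := by
  have key : ∀ x y, (B (U x) (U y)).re = (B x y).re := by
    intro x y
    have h1 := R.B4.qd_add hB (U x) (U y)
    have h2 := R.B4.qd_add hB x y
    rw [← map_add, hq, hq, hq] at h1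
    linarith
  refine Complex.ext (key x y) ?_
  have h1 := key (Complex.I • x) y
  rw [map_smul] at h1
  have e1 := R.B4.form_smul B Complex.I 1 (U x) (U y)
  have e2 := R.B4.form_smul B Complex.I 1 x y
  rw [one_smul] at e1 e2
  rw [e1, e2] at h1
  have e3 : ∀ z : ℂ, (conj Complex.I * 1 * z).re = z.im := fun z => by simp
  rw [e3, e3] at h1
  exact h1

/-- the symmetry in the format of `R.B4`. -/
theorem isSym_symF {act inv : ElectronState N → ElectronState N} {W : LS N ≃ₗᵢ[ℂ] LS N}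
    (h : Inter act inv W) {B : SForm (FS N)} (hB : Herm B)
    (hq : ∀ Ψ, qd B (toFS (act Ψ)) = qd B (toFS Ψ)) : R.B4.IsSym amF B (symF h) where
  inner x y := by
    have e : ∀ u : FS N, amF u = JF u := fun _ => rfl
    rw [e, e, e, e, JF_symF, JF_symF, W.inner_map_map]
  form x y := by
    refine form_inv hB (symF h) (fun x => ?_) x y
    rw [symF_apply, hq, toFS_ofFS]

/-! ### the concrete symmetries -/

theorem inter_rot (A : R3 ≃ₗᵢ[ℝ] R3) : Inter (N := N) (rot A) (rot A.symm) (rotL A) :=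
  (isSym_rot_pot A 0).toInter

theorem inter_flip (τ : Equiv.Perm (Fin 2)) :
    Inter (N := N) (spinPerm τ) (spinPerm τ.symm) (flipL τ) :=
  (isSym_flip τ (fun _ => 0)).toInter

theorem inter_phase (ζ : Fin 2 → ℂ) (h : ∀ a, ‖ζ a‖ = 1) :
    Inter (N := N) (phase ζ) (phase fun a => (ζ a)⁻¹) (phaseL ζ h) :=
  (isSym_phase ζ h (fun _ => 0)).toInter

/-- rotation `u ↦ u(A ·)` on the form domain. -/
def rotF (A : R3 ≃ₗᵢ[ℝ] R3) : FS N ≃ₗ[ℂ] FS N := symF (inter_rot A)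

/-- spin permutation on the form domain. -/
def flipF (τ : Equiv.Perm (Fin 2)) : FS N ≃ₗ[ℂ] FS N := symF (inter_flip τ)

/-- spin phase on the form domain. -/
def phaseF (ζ : Fin 2 → ℂ) (h : ∀ a, ‖ζ a‖ = 1) : FS N ≃ₗ[ℂ] FS N := symF (inter_phase ζ h)

/-- Let `B` be a hermitian form on `FS N` whose quadratic form is `energy (pot lam)`. -/
theorem isSym_rotF (A : R3 ≃ₗᵢ[ℝ] R3) {lam : ℝ} {B : SForm (FS N)} (hB : Herm B)
    (hq : ∀ Ψ, qd B (toFS Ψ) = energy (R.Top.pot lam) Ψ) : R.B4.IsSym amF B (rotF A) :=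
  isSym_symF _ hB fun Ψ => by rw [hq, hq, energy_pot_rot]

theorem isSym_flipF (τ : Equiv.Perm (Fin 2)) {w : Conf N → ℝ} {B : SForm (FS N)} (hB : Herm B)
    (hq : ∀ Ψ, qd B (toFS Ψ) = energy w Ψ) : R.B4.IsSym amF B (flipF τ) :=
  isSym_symF _ hB fun Ψ => by rw [hq, hq, energy_spinPerm]

theorem isSym_phaseF (ζ : Fin 2 → ℂ) (h : ∀ a, ‖ζ a‖ = 1) {w : Conf N → ℝ} {B : SForm (FS N)}
    (hB : Herm B) (hq : ∀ Ψ, qd B (toFS Ψ) = energy w Ψ) : R.B4.IsSym amF B (phaseF ζ h) :=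
  isSym_symF _ hB fun Ψ => by rw [hq, hq]; exact energy_spinMul _ _ (norm_spinPhase h) w Ψ

/-! ### linear relations of states -/

theorem toFS_eq_sum_iff {ι : Type*} [Fintype ι] (Ψ : ElectronState N) (c : ι → ℂ)
    (Φ : ι → ElectronState N) :
    toFS Ψ = ∑ k, c k • toFS (Φ k) ↔
      ∀ s, Ψ.amp s =ᵐ[volume] fun x => ∑ k, c k * (Φ k).amp s x := by
  have e1 : ∀ s, (JF (∑ k, c k • toFS (Φ k)) s : LC N)
      =ᵐ[volume] fun x => ∑ k, c k * (Φ k).amp s x := by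
    intro s
    have h1 : (JF (∑ k, c k • toFS (Φ k))) s = ∑ k, c k • (amp_L2 (Φ k) s).toLp _ := by
      rw [map_sum]
      simp only [map_smul, JF_toFS]
      rw [WithLp.ofLp_sum, Finset.sum_apply]
      rfl
    rw [h1]
    have h2 : ((∑ k, c k • (amp_L2 (Φ k) s).toLp _ : LC N) : Conf N → ℂ)
        =ᵐ[volume] ∑ k, ⇑(c k • (amp_L2 (Φ k) s).toLp _ : LC N) := by
      have := Lp.coeFn_finsetSum (s := Finset.univ)
        (f := fun k => (c k • (amp_L2 (Φ k) s).toLp _ : LC N))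
      exact this
    refine h2.trans ?_
    have h3 : ∀ᵐ x, ∀ k, (c k • (amp_L2 (Φ k) s).toLp _ : LC N) x = c k * (Φ k).amp s x := by
      rw [ae_all_iff]
      intro k
      filter_upwards [Lp.coeFn_smul (c k) ((amp_L2 (Φ k) s).toLp _), (amp_L2 (Φ k) s).coeFn_toLp]
        with x a1 a2
      rw [a1, Pi.smul_apply, a2, smul_eq_mul]
    filter_upwards [h3] with x hx
    rw [Finset.sum_apply]
    exact Finset.sum_congr rfl fun k _ => hx k
  constructor
  · intro h s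
    have h1 := congrArg JF h
    rw [JF_toFS] at h1
    have h2 := JS_ae Ψ s
    rw [h1] at h2
    exact h2.symm.trans (e1 s)
  · intro h
    refine JF_injective (PiLp.ext fun s => Lp.ext ?_)
    rw [JF_toFS]
    exact ((JS_ae Ψ s).trans (h s)).trans (e1 s).symm

/-! ### the Dyson amplitude -/

variable {n : ℕ}

theorem dyson_sum_ae {ι : Type*} [Fintype ι] (Φ : ElectronState n) (Ψ : ElectronState (n + 1))
    (c : ι → ℂ) (Ψ' : ι → ElectronState (n + 1))
    (h : ∀ s, Ψ.amp s =ᵐ[volume] fun x => ∑ k, c k * (Ψ' k).amp s x) (σ : Fin 2) :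
    ∀ᵐ x, dyson Φ Ψ σ x = ∑ k, c k * dyson Φ (Ψ' k) σ x := by
  have h1 : ∀ᵐ x : R3, ∀ s, ∀ᵐ y : Conf n, Ψ.amp s (Fin.cons x y) =
      ∑ k, c k * (Ψ' k).amp s (Fin.cons x y) := by
    rw [ae_all_iff]
    intro s
    have h2 : ∀ᵐ p : R3 × Conf n, Ψ.amp s (Fin.cons p.1 p.2) =
        ∑ k, c k * (Ψ' k).amp s (Fin.cons p.1 p.2) :=
      (consE_mp (n := n)).quasiMeasurePreserving.ae (h s)
    exact Measure.ae_ae_of_ae_prod h2
  have h3 : ∀ᵐ x : R3, ∀ k s, MemLp (fun y : Conf n => (Ψ' k).amp s (Fin.cons x y)) 2 volume := by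
    rw [ae_all_iff]
    exact fun k => ae_memLp_rest_all (amp_L2 (Ψ' k))
  filter_upwards [h1, h3] with x hx hx3
  unfold dyson
  have h4 : ∀ s : Spn n, ∫ y, conj (Φ.amp s y) * Ψ.amp (Fin.cons σ s) (Fin.cons x y) =
      ∑ k, c k * ∫ y, conj (Φ.amp s y) * (Ψ' k).amp (Fin.cons σ s) (Fin.cons x y) := by
    intro s
    have h5 : ∫ y, conj (Φ.amp s y) * Ψ.amp (Fin.cons σ s) (Fin.cons x y) =
        ∫ y, ∑ k, c k * (conj (Φ.amp s y) * (Ψ' k).amp (Fin.cons σ s) (Fin.cons x y)) := by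
      refine integral_congr_ae ?_
      filter_upwards [hx (Fin.cons σ s)] with y hy
      rw [hy, Finset.mul_sum]
      exact Finset.sum_congr rfl fun k _ => by ring
    rw [h5, integral_finsetSum]
    · exact Finset.sum_congr rfl fun k _ => integral_const_mul _ _
    · intro k _
      exact (H518.integrable_coef (amp_L2 Φ s) (hx3 k (Fin.cons σ s))).const_mul _
  simp only [h4]
  rw [Finset.sum_comm]
  exact Finset.sum_congr rfl fun k _ => by rw [Finset.mul_sum]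

/-- the three Dyson amplitudes transform like a vector. -/
theorem dyson_equiv (Φ : ElectronState n) (Ψ : Fin 3 → ElectronState (n + 1))
    (hΦ : ∀ (A : R3 ≃ₗᵢ[ℝ] R3) s, (rot A Φ).amp s =ᵐ[volume] Φ.amp s)
    (hΨ : ∀ (A : R3 ≃ₗᵢ[ℝ] R3) j s, (rot A (Ψ j)).amp s =ᵐ[volume]
      fun x => ∑ k, (mat A j k : ℂ) * (Ψ k).amp s x) (σ : Fin 2)
    (A : R3 ≃ₗᵢ[ℝ] R3) (j : Fin 3) : ∀ᵐ x : R3,
      ∑ k, ((A (EuclideanSpace.single j (1 : ℝ))) k : ℂ) * dyson Φ (Ψ k) σ (A x)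
        = dyson Φ (Ψ j) σ x := by
  -- `d_k(Ax) = ∑ l, mat A k l d_l(x)`
  have h1 : ∀ k, ∀ᵐ x, dyson Φ (Ψ k) σ (A x) = ∑ l, (mat A k l : ℂ) * dyson Φ (Ψ l) σ x := by
    intro k
    have h2 := dyson_congr (Φ := rot A Φ) (Φ' := Φ) (Ψ := rot A (Ψ k)) (Ψ' := rot A (Ψ k)) (hΦ A)
      (fun s => EventuallyEq.refl _ _) σ
    have h3 := dyson_sum_ae Φ (rot A (Ψ k)) (fun l => (mat A k l : ℂ)) Ψ (hΨ A k) σ
    filter_upwards [h2, h3] with x a1 a2
    rw [← dyson_rot, a1, a2]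
  filter_upwards [h1 0, h1 1, h1 2] with x a0 a1 a2
  have h4 : ∀ k, dyson Φ (Ψ k) σ (A x) = ∑ l, (mat A k l : ℂ) * dyson Φ (Ψ l) σ x := by
    intro k
    fin_cases k
    exacts [a0, a1, a2]
  have h5 : ∀ k, ((A (EuclideanSpace.single j (1 : ℝ))) k : ℂ) = (mat A k j : ℂ) := fun k => rfl
  simp only [h4, h5, Finset.mul_sum]
  rw [Finset.sum_comm]
  have h6 : ∀ l, ∑ k, (mat A k j : ℂ) * ((mat A k l : ℂ) * dyson Φ (Ψ l) σ x)
      = (if j = l then 1 else 0) * dyson Φ (Ψ l) σ x := by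
    intro l
    have h7 := mat_col A j l
    rw [← Complex.ofReal_inj] at h7
    push_cast at h7
    have h8 : ((if j = l then (1 : ℝ) else 0 : ℝ) : ℂ) = if j = l then 1 else 0 := by
      split_ifs <;> simp
    rw [h8] at h7
    rw [← h7, Finset.sum_mul]
    exact Finset.sum_congr rfl fun k _ => by ring
  simp only [h6]
  simp

/-- **Radial form of the Dyson amplitude.** -/
theorem dyson_radial (Φ : ElectronState n) (Ψ : Fin 3 → ElectronState (n + 1))
    (hΦ : ∀ (A : R3 ≃ₗᵢ[ℝ] R3) s, (rot A Φ).amp s =ᵐ[volume] Φ.amp s)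
    (hΨ : ∀ (A : R3 ≃ₗᵢ[ℝ] R3) j s, (rot A (Ψ j)).amp s =ᵐ[volume]
      fun x => ∑ k, (mat A j k : ℂ) * (Ψ k).amp s x) (σ : Fin 2) :
    ∃ G : ℝ → ℂ, Measurable G ∧ ∀ j, ∀ᵐ x, dyson Φ (Ψ j) σ x = G ‖x‖ * (x j : ℂ) := by
  obtain ⟨g, hg, h⟩ := radial_of_equivariant (d := fun j => dyson Φ (Ψ j) σ)
    (fun j => (memLp_dyson Φ (Ψ j) σ).locallyIntegrable (by norm_num))
    (dyson_equiv Φ Ψ hΦ hΨ σ)
  refine ⟨fun r => g r / r, hg.div (by fun_prop), fun j => ?_⟩
  filter_upwards [h j] with x hx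
  rw [hx]
  push_cast
  ring

/-- the same with the relations stated in `FS`. -/
theorem dyson_radial_FS (Φ : ElectronState n) (Ψ : Fin 3 → ElectronState (n + 1))
    (hΦ : ∀ A : R3 ≃ₗᵢ[ℝ] R3, rotF A (toFS Φ) = toFS Φ)
    (hΨ : ∀ (A : R3 ≃ₗᵢ[ℝ] R3) j, rotF A (toFS (Ψ j)) = ∑ k, (mat A j k : ℂ) • toFS (Ψ k))
    (σ : Fin 2) :
    ∃ G : ℝ → ℂ, Measurable G ∧ ∀ j, ∀ᵐ x, dyson Φ (Ψ j) σ x = G ‖x‖ * (x j : ℂ) := by
  refine dyson_radial Φ Ψ (fun A s => ?_) (fun A j s => ?_) σ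
  · have h := hΦ A
    rw [rotF, symF_toFS, toFS_eq_iff, JS_eq_iff] at h
    exact h s
  · have h := hΨ A j
    rw [rotF, symF_toFS, toFS_eq_sum_iff] at h
    exact h s

/-- vanishing of the Dyson amplitude by the spin phases. -/
theorem dyson_eq_zero (ζ : Fin 2 → ℂ) (Φ : ElectronState n) (Ψ : ElectronState (n + 1)) (a b : ℂ)
    (hΦ : ∀ s, (phase ζ Φ).amp s =ᵐ[volume] fun x => a * Φ.amp s x)
    (hΨ : ∀ s, (phase ζ Ψ).amp s =ᵐ[volume] fun x => b * Ψ.amp s x) (σ : Fin 2)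
    (hne : ζ σ * a ≠ b) : ∀ᵐ x, dyson Φ Ψ σ x = 0 := by
  have h1 : ∀ s, spinPhase ζ s ≠ a → Φ.amp s =ᵐ[volume] 0 := by
    intro s hs
    filter_upwards [hΦ s] with x hx
    have hx' : spinPhase ζ s * Φ.amp s x = a * Φ.amp s x := hx
    have h2 : (spinPhase ζ s - a) * Φ.amp s x = 0 := by rw [sub_mul, hx', sub_self]
    rcases mul_eq_zero.1 h2 with h3 | h3
    · exact absurd (sub_eq_zero.1 h3) hs
    · exact h3
  have h2 : ∀ s, spinPhase ζ s ≠ b → Ψ.amp s =ᵐ[volume] 0 := by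
    intro s hs
    filter_upwards [hΨ s] with x hx
    have hx' : spinPhase ζ s * Ψ.amp s x = b * Ψ.amp s x := hx
    have h2 : (spinPhase ζ s - b) * Ψ.amp s x = 0 := by rw [sub_mul, hx', sub_self]
    rcases mul_eq_zero.1 h2 with h3 | h3
    · exact absurd (sub_eq_zero.1 h3) hs
    · exact h3
  have h3 : ∀ᵐ x : R3, ∀ s, spinPhase ζ s ≠ b → ∀ᵐ y : Conf n, Ψ.amp s (Fin.cons x y) = 0 := by
    rw [ae_all_iff]
    intro s
    by_cases hs : spinPhase ζ s ≠ b
    · have h4 : ∀ᵐ p : R3 × Conf n, Ψ.amp s (Fin.cons p.1 p.2) = 0 :=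
        (consE_mp (n := n)).quasiMeasurePreserving.ae (h2 s hs)
      filter_upwards [Measure.ae_ae_of_ae_prod h4] with x hx _
      exact hx
    · exact Eventually.of_forall fun x h => absurd h hs
  filter_upwards [h3] with x hx
  unfold dyson
  refine Finset.sum_eq_zero fun s _ => ?_
  by_cases hs : spinPhase ζ s = a
  · have hc : spinPhase ζ (Fin.cons σ s : Spn (n + 1)) ≠ b := by
      rw [spinPhase_cons, hs]
      exact hne
    refine integral_eq_zero_of_ae ?_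
    filter_upwards [hx _ hc] with y hy
    rw [hy, mul_zero]
    rfl
  · refine integral_eq_zero_of_ae ?_
    filter_upwards [h1 s hs] with y hy
    rw [hy]
    simp

/-- the same with the relations stated in `FS`. -/
theorem dyson_eq_zero_FS (ζ : Fin 2 → ℂ) (hζ : ∀ a, ‖ζ a‖ = 1) (Φ : ElectronState n)
    (Ψ : ElectronState (n + 1)) (a b : ℂ)
    (hΦ : phaseF ζ hζ (toFS Φ) = a • toFS Φ) (hΨ : phaseF ζ hζ (toFS Ψ) = b • toFS Ψ) (σ : Fin 2)
    (hne : ζ σ * a ≠ b) : ∀ᵐ x, dyson Φ Ψ σ x = 0 := by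
  refine dyson_eq_zero ζ Φ Ψ a b (fun s => ?_) (fun s => ?_) σ hne
  · have h := hΦ
    rw [phaseF, symF_toFS] at h
    have h1 := (toFS_eq_sum_iff (phase ζ Φ) (fun _ : Unit => a) (fun _ => Φ)).1 (by simpa using h) s
    simpa using h1
  · have h := hΨ
    rw [phaseF, symF_toFS] at h
    have h1 := (toFS_eq_sum_iff (phase ζ Ψ) (fun _ : Unit => b) (fun _ => Ψ)).1 (by simpa using h) s
    simpa using h1

end

end Vale.Agent.P363.H868
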