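import Vale.Agent.P363.R.Sob.S01
import Vale.Agent.P363.H382.Space
import Vale.Agent.P363.R.Top.Defs

/-! Symmetries acting on electron states (block N6): linear isometries of `ℝ³`, permutations of the
two spin values, multiplication by symmetric functions of the spin configuration. -/

namespace Vale.Agent.P363.H868

open MeasureTheory Filter Topology
open Vale.Agent.P363.Stmt Vale.Agent.P363.R.Sob Vale.Agent.P363.H382
open scoped ContDiff ENNReal ComplexConjugate

set_option linter.unusedSectionVars false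

noncomputable section

/-! ### weak derivatives in linear combinations of directions -/

section
variable {E : Type*} [NormedAddCommGroup E] [NormedSpace ℝ E] [FiniteDimensional ℝ E]
  [MeasurableSpace E] [BorelSpace E] {μ : Measure E} [μ.IsAddHaarMeasure]
variable {F : Type*} [NormedAddCommGroup F] [NormedSpace ℝ F]

theorem isWD_dir_sum {ι : Type*} [Fintype ι] (c : ι → ℝ) (v : ι → E) {f : E → F} {g : ι → E → F}
    (hf : LocallyIntegrable f μ) (hg : ∀ l, LocallyIntegrable (g l) μ)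
    (h : ∀ l, IsWD μ (v l) f (g l)) :
    IsWD μ (∑ l, c l • v l) f (fun x => ∑ l, c l • g l x) := by
  intro φ hφ
  have e1 : ∀ x, (fderiv ℝ φ x (∑ l, c l • v l)) • f x
      = ∑ l, c l • ((fderiv ℝ φ x (v l)) • f x) := by
    intro x
    rw [map_sum, Finset.sum_smul]
    refine Finset.sum_congr rfl fun l _ => ?_
    rw [map_smul, smul_eq_mul, mul_smul]
  have e2 : ∀ x, φ x • ∑ l, c l • g l x = ∑ l, c l • (φ x • g l x) := by
    intro x
    rw [Finset.smul_sum]
    exact Finset.sum_congr rfl fun l _ => smul_comm _ _ _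
  simp only [e1, e2]
  have i1 : ∀ l ∈ Finset.univ, Integrable (fun x => c l • ((fderiv ℝ φ x (v l)) • f x)) μ :=
    fun l _ => ((hφ.fderiv (v l)).integrable_smul hf).smul (c l)
  have i2 : ∀ l ∈ Finset.univ, Integrable (fun x => c l • (φ x • g l x)) μ :=
    fun l _ => (hφ.integrable_smul (hg l)).smul (c l)
  rw [integral_finsetSum _ i1, integral_finsetSum _ i2, ← Finset.sum_neg_distrib]
  refine Finset.sum_congr rfl fun l _ => ?_
  rw [integral_smul, integral_smul, h l φ hφ, smul_neg]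

end

/-! ### a linear isometry acting on all electrons -/

/-- `x ↦ (A x₁, …, A x_N)`. -/
def rotE {N : ℕ} (A : R3 ≃ₗᵢ[ℝ] R3) : Conf N ≃L[ℝ] Conf N :=
  ContinuousLinearEquiv.piCongrRight (fun _ : Fin N => A.toContinuousLinearEquiv)

@[simp] theorem rotE_apply {N : ℕ} (A : R3 ≃ₗᵢ[ℝ] R3) (x : Conf N) (i : Fin N) :
    rotE A x i = A (x i) := rfl

theorem rotE_perm {N : ℕ} (A : R3 ≃ₗᵢ[ℝ] R3) (σ : Equiv.Perm (Fin N)) (x : Conf N) :
    rotE A (x ∘ σ) = rotE A x ∘ σ := rfl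

theorem rotE_cons {n : ℕ} (A : R3 ≃ₗᵢ[ℝ] R3) (r : R3) (y : Conf n) :
    rotE A (Fin.cons r y : Conf (n + 1)) = Fin.cons (A r) (rotE A y) := by
  funext i
  refine Fin.cases ?_ (fun j => ?_) i <;> simp

theorem rotE_mp {N : ℕ} (A : R3 ≃ₗᵢ[ℝ] R3) :
    MeasurePreserving (rotE A : Conf N → Conf N) volume volume :=
  volume_preserving_pi fun _ => A.measurePreserving

theorem rotE_symm_mp {N : ℕ} (A : R3 ≃ₗᵢ[ℝ] R3) (x : Conf N) :
    rotE A.symm (rotE A x) = x := by
  funext i; simp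

/-- matrix entries: `(A e_k)_l`. -/
def mat (A : R3 ≃ₗᵢ[ℝ] R3) (l k : Fin 3) : ℝ := (A (e3 k)) l

theorem e3_expand (v : R3) : v = ∑ l, v l • e3 l := by
  ext k
  simp [e3, Pi.single_apply]

theorem A_e3 (A : R3 ≃ₗᵢ[ℝ] R3) (k : Fin 3) : A (e3 k) = ∑ l, mat A l k • e3 l :=
  e3_expand _

theorem inner_e3 (k l : Fin 3) : inner ℝ (e3 k) (e3 l) = if k = l then (1 : ℝ) else 0 := by
  fin_cases k <;> fin_cases l <;>
    simp [e3, PiLp.inner_apply]

theorem mat_col (A : R3 ≃ₗᵢ[ℝ] R3) (k l : Fin 3) :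
    ∑ m, mat A m k * mat A m l = if k = l then (1 : ℝ) else 0 := by
  rw [← inner_e3, ← A.inner_map_map]
  simp only [PiLp.inner_apply, mat]
  refine Finset.sum_congr rfl fun m _ => ?_
  simp [mul_comm]

theorem mat_symm (A : R3 ≃ₗᵢ[ℝ] R3) (k l : Fin 3) : mat A.symm k l = mat A l k := by
  have h1 : mat A.symm k l = inner ℝ (e3 k) (A.symm (e3 l)) := by
    simp [mat, e3, EuclideanSpace.inner_single_left]
  have h2 : mat A l k = inner ℝ (e3 l) (A (e3 k)) := by
    simp [mat, e3, EuclideanSpace.inner_single_left]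
  rw [h1, h2, ← A.inner_map_map, A.apply_symm_apply, real_inner_comm]

theorem mat_row (A : R3 ≃ₗᵢ[ℝ] R3) (k l : Fin 3) :
    ∑ m, mat A k m * mat A l m = if k = l then (1 : ℝ) else 0 := by
  rw [← mat_col A.symm]
  simp only [mat_symm]

theorem rotE_dir {N : ℕ} (A : R3 ≃ₗᵢ[ℝ] R3) (i : Fin N) (k : Fin 3) :
    rotE A (dir i k) = ∑ l, mat A l k • dir i l := by
  funext j
  rw [rotE_apply]
  by_cases h : j = i
  · subst h
    simp only [dir, Pi.single_eq_same, Finset.sum_apply, Pi.smul_apply]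
    exact A_e3 A k
  · simp [dir, h]

variable {N : ℕ}

theorem loc_int {f : Conf N → ℂ} (h : L2 f) : LocallyIntegrable f volume :=
  (L2_iff.1 h).locallyIntegrable (by norm_num)

theorem isWD_rot (A : R3 ≃ₗᵢ[ℝ] R3) {f : Conf N → ℂ} {g : Fin N → Fin 3 → Conf N → ℂ}
    (hf : L2 f) (hg : ∀ i k, L2 (g i k)) (h : ∀ i k, IsWD volume (dir i k) f (g i k))
    (i : Fin N) (k : Fin 3) :
    IsWD volume (dir i k) (fun x => f (rotE A x))
      (fun x => ∑ l, (mat A l k : ℂ) * g i l (rotE A x)) := by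
  have h1 := isWD_dir_sum (μ := (volume : Measure (Conf N))) (fun l => mat A l k)
    (fun l => dir i l) (loc_int hf) (fun l => loc_int (hg i l)) (fun l => h i l)
  rw [← rotE_dir] at h1
  have h2 := isWD_comp_equiv (rotE A) (rotE_mp A) h1
  simpa only [Complex.real_smul] using h2

/-- the state `x ↦ Ψ(A x)`. -/
def rot (A : R3 ≃ₗᵢ[ℝ] R3) (Ψ : ElectronState N) : ElectronState N where
  amp s x := Ψ.amp s (rotE A x)
  grad s i k x := ∑ l, (mat A l k : ℂ) * Ψ.grad s i l (rotE A x)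
  amp_memLp s := (L2_iff.1 (Ψ.amp_memLp s)).comp_measurePreserving (rotE_mp A)
  grad_memLp s i k := by
    rw [L2_iff]
    refine memLp_finsetSum _ fun l _ => ?_
    exact ((L2_iff.1 (Ψ.grad_memLp s i l)).comp_measurePreserving (rotE_mp A)).const_mul _
  grad_weak s i k := by
    rw [isWeakDeriv_iff]
    exact isWD_rot A (Ψ.amp_memLp s) (fun i k => Ψ.grad_memLp s i k)
      (fun i k => isWeakDeriv_iff.1 (Ψ.grad_weak s i k)) i k
  antisymm σ s := by
    rw [AEConf_iff]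
    have h := (rotE_mp (N := N) A).quasiMeasurePreserving.ae (AEConf_iff.1 (Ψ.antisymm σ s))
    filter_upwards [h] with x hx
    rw [rotE_perm, hx]

@[simp] theorem rot_amp (A : R3 ≃ₗᵢ[ℝ] R3) (Ψ : ElectronState N) (s) (x) :
    (rot A Ψ).amp s x = Ψ.amp s (rotE A x) := rfl

theorem int_rotE {F : Type*} [NormedAddCommGroup F] [NormedSpace ℝ F] (A : R3 ≃ₗᵢ[ℝ] R3)
    (f : Conf N → F) : ∫ x, f (rotE A x) = ∫ x, f x :=
  integral_comp_equiv (rotE A) (rotE_mp A) f

theorem normSq_rot (A : R3 ≃ₗᵢ[ℝ] R3) (Ψ : ElectronState N) : normSq (rot A Ψ) = normSq Ψ := by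
  unfold normSq
  refine Finset.sum_congr rfl fun s _ => ?_
  rw [intR_eq, intR_eq, ← int_rotE A (fun x => ‖Ψ.amp s x‖ ^ 2)]
  rfl

theorem sum_mat_normSq (A : R3 ≃ₗᵢ[ℝ] R3) (z : Fin 3 → ℂ) :
    ∑ k, ‖∑ l, (mat A l k : ℂ) * z l‖ ^ 2 = ∑ l, ‖z l‖ ^ 2 := by
  have h : ∀ w : ℂ, ((‖w‖ ^ 2 : ℝ) : ℂ) = w * conj w := fun w => by
    rw [Complex.mul_conj, Complex.normSq_eq_norm_sq]
  have key : ((∑ k, ‖∑ l, (mat A l k : ℂ) * z l‖ ^ 2 : ℝ) : ℂ) = ((∑ l, ‖z l‖ ^ 2 : ℝ) : ℂ) := by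
    rw [Complex.ofReal_sum, Complex.ofReal_sum]
    simp only [h, map_sum, map_mul, Complex.conj_ofReal, Finset.sum_mul_sum]
    rw [Finset.sum_comm]
    refine Finset.sum_congr rfl fun l _ => ?_
    rw [Finset.sum_comm]
    have h2 : ∀ m, ∑ k, (mat A l k : ℂ) * z l * ((mat A m k : ℂ) * conj (z m))
        = (if l = m then (1 : ℂ) else 0) * (z l * conj (z m)) := by
      intro m
      have h3 : (if l = m then (1 : ℂ) else 0) = ∑ k, (mat A l k : ℂ) * (mat A m k : ℂ) := by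
        have := mat_row A l m
        rw [← Complex.ofReal_inj] at this
        push_cast at this
        rw [this]
        split_ifs <;> simp
      rw [h3, Finset.sum_mul]
      exact Finset.sum_congr rfl fun k _ => by ring
    simp only [h2]
    simp
  exact_mod_cast key

theorem energy_rot (A : R3 ≃ₗᵢ[ℝ] R3) {w : Conf N → ℝ} (hw : ∀ x, w (rotE A x) = w x)
    (Ψ : ElectronState N) : energy w (rot A Ψ) = energy w Ψ := by
  unfold energy
  congr 1
  · congr 1
    refine Finset.sum_congr rfl fun s _ => ?_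
    refine Finset.sum_congr rfl fun i _ => ?_
    have hi : ∀ k, Integrable (fun x => ‖Ψ.grad s i k x‖ ^ 2) volume := fun k =>
      (L2_iff.1 (Ψ.grad_memLp s i k)).integrable_norm_pow (by norm_num)
    have hi' : ∀ k, Integrable (fun x => ‖(rot A Ψ).grad s i k x‖ ^ 2) volume := fun k =>
      (L2_iff.1 ((rot A Ψ).grad_memLp s i k)).integrable_norm_pow (by norm_num)
    simp only [intR_eq]
    rw [← integral_finsetSum _ fun k _ => hi' k, ← integral_finsetSum _ fun k _ => hi k,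
      ← int_rotE A (fun x => ∑ k, ‖Ψ.grad s i k x‖ ^ 2)]
    refine integral_congr_ae (Eventually.of_forall fun x => ?_)
    exact sum_mat_normSq A fun l => Ψ.grad s i l (rotE A x)
  · refine Finset.sum_congr rfl fun s _ => ?_
    rw [intR_eq, intR_eq, ← int_rotE A (fun x => w x * ‖Ψ.amp s x‖ ^ 2)]
    refine integral_congr_ae (Eventually.of_forall fun x => ?_)
    simp only [rot_amp, hw]

theorem pot_rotE (A : R3 ≃ₗᵢ[ℝ] R3) (lam : ℝ) (x : Conf N) :
    R.Top.pot lam (rotE A x) = R.Top.pot lam x := by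
  unfold R.Top.pot R.Top.rep
  simp only [rotE_apply, ← map_sub, LinearIsometryEquiv.norm_map]

theorem energy_pot_rot (A : R3 ≃ₗᵢ[ℝ] R3) (lam : ℝ) (Ψ : ElectronState N) :
    energy (R.Top.pot lam) (rot A Ψ) = energy (R.Top.pot lam) Ψ :=
  energy_rot A (pot_rotE A lam) Ψ

/-! ### the Dyson amplitude -/

theorem dyson_rot {n : ℕ} (A : R3 ≃ₗᵢ[ℝ] R3) (Φ : ElectronState n) (Ψ : ElectronState (n + 1))
    (σ : Fin 2) (x : R3) :
    R.Top.dyson (rot A Φ) (rot A Ψ) σ x = R.Top.dyson Φ Ψ σ (A x) := by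
  unfold R.Top.dyson
  refine Finset.sum_congr rfl fun s _ => ?_
  rw [← int_rotE A (fun y => conj (Φ.amp s y) * Ψ.amp (Fin.cons σ s) (Fin.cons (A x) y))]
  simp only [rot_amp, rotE_cons]

/-! ### permutation of the two spin values -/

/-- exchange of the two spin values according to `τ`. -/
def spinPerm (τ : Equiv.Perm (Fin 2)) (Ψ : ElectronState N) : ElectronState N where
  amp s := Ψ.amp (τ ∘ s)
  grad s := Ψ.grad (τ ∘ s)
  amp_memLp _ := Ψ.amp_memLp _
  grad_memLp _ := Ψ.grad_memLp _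
  grad_weak _ := Ψ.grad_weak _
  antisymm σ s := Ψ.antisymm σ (τ ∘ s)

@[simp] theorem spinPerm_amp (τ : Equiv.Perm (Fin 2)) (Ψ : ElectronState N) (s) :
    (spinPerm τ Ψ).amp s = Ψ.amp (τ ∘ s) := rfl

/-- `s ↦ τ ∘ s` as a permutation of the spin configurations. -/
def spinEquiv (τ : Equiv.Perm (Fin 2)) : Equiv.Perm (Fin N → Fin 2) :=
  Equiv.piCongrRight fun _ => τ

theorem spinEquiv_apply (τ : Equiv.Perm (Fin 2)) (s : Fin N → Fin 2) :
    spinEquiv τ s = τ ∘ s := rfl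

theorem sum_spin {M : Type*} [AddCommMonoid M] (τ : Equiv.Perm (Fin 2)) (f : (Fin N → Fin 2) → M) :
    ∑ s, f (τ ∘ s) = ∑ s, f s :=
  Equiv.sum_comp (spinEquiv τ) f

theorem normSq_spinPerm (τ : Equiv.Perm (Fin 2)) (Ψ : ElectronState N) :
    normSq (spinPerm τ Ψ) = normSq Ψ :=
  sum_spin τ fun s => intR fun x => ‖Ψ.amp s x‖ ^ 2

theorem energy_spinPerm (τ : Equiv.Perm (Fin 2)) (w : Conf N → ℝ) (Ψ : ElectronState N) :
    energy w (spinPerm τ Ψ) = energy w Ψ := by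
  unfold energy
  have h1 := sum_spin τ fun s => ∑ i, ∑ k, intR fun x => ‖Ψ.grad s i k x‖ ^ 2
  have h2 := sum_spin τ fun s => intR fun x => w x * ‖Ψ.amp s x‖ ^ 2
  rw [← h1, ← h2]
  rfl

/-! ### multiplication by a symmetric function of the spins -/

/-- multiplication by a symmetric function `χ` of the spin configuration. -/
def spinMul (χ : (Fin N → Fin 2) → ℂ) (hχ : ∀ (σ : Equiv.Perm (Fin N)) s, χ (s ∘ σ) = χ s)
    (Ψ : ElectronState N) : ElectronState N where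
  amp s x := χ s * Ψ.amp s x
  grad s i k x := χ s * Ψ.grad s i k x
  amp_memLp s := (L2_iff.1 (Ψ.amp_memLp s)).const_mul _
  grad_memLp s i k := (L2_iff.1 (Ψ.grad_memLp s i k)).const_mul _
  grad_weak s i k := by
    rw [isWeakDeriv_iff]
    exact (isWeakDeriv_iff.1 (Ψ.grad_weak s i k)).const_smul (χ s)
  antisymm σ s := by
    rw [AEConf_iff]
    filter_upwards [AEConf_iff.1 (Ψ.antisymm σ s)] with x hx
    rw [hx, hχ]
    ring

@[simp] theorem spinMul_amp (χ : (Fin N → Fin 2) → ℂ) (hχ) (Ψ : ElectronState N) (s) (x) :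
    (spinMul χ hχ Ψ).amp s x = χ s * Ψ.amp s x := rfl

theorem normSq_spinMul (χ : (Fin N → Fin 2) → ℂ) (hχ) (h1 : ∀ s, ‖χ s‖ = 1)
    (Ψ : ElectronState N) : normSq (spinMul χ hχ Ψ) = normSq Ψ := by
  unfold normSq
  simp [spinMul, h1]

theorem energy_spinMul (χ : (Fin N → Fin 2) → ℂ) (hχ) (h1 : ∀ s, ‖χ s‖ = 1)
    (w : Conf N → ℝ) (Ψ : ElectronState N) :
    energy w (spinMul χ hχ Ψ) = energy w Ψ := by
  unfold energy
  simp [spinMul, h1]

/-- the phase `i^{number of spin-down electrons}`; more generally `∏ ζ(s_i)`. -/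
def spinPhase (ζ : Fin 2 → ℂ) (s : Fin N → Fin 2) : ℂ := ∏ i, ζ (s i)

theorem spinPhase_perm (ζ : Fin 2 → ℂ) (σ : Equiv.Perm (Fin N)) (s : Fin N → Fin 2) :
    spinPhase ζ (s ∘ σ) = spinPhase ζ s :=
  Equiv.prod_comp σ fun i => ζ (s i)

theorem norm_spinPhase {ζ : Fin 2 → ℂ} (h : ∀ a, ‖ζ a‖ = 1) (s : Fin N → Fin 2) :
    ‖spinPhase ζ s‖ = 1 := by
  simp [spinPhase, norm_prod, h]

theorem spinPhase_cons {n : ℕ} (ζ : Fin 2 → ℂ) (a : Fin 2) (s : Fin n → Fin 2) :
    spinPhase ζ (Fin.cons a s : Fin (n + 1) → Fin 2) = ζ a * spinPhase ζ s := by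
  simp [spinPhase, Fin.prod_univ_succ]

end

end Vale.Agent.P363.H868
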