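import Vale.Agent.P363.H868.Sym
import Vale.Agent.P363.R.B4.Main

/-! The hypotheses `DysHyp` of the B4 assembly. -/

namespace Vale.Agent.P363.H868

open MeasureTheory Filter Topology
open Vale.Agent.P363.Stmt Vale.Agent.P363.H382
open Vale.Agent.P363.R.Top (dyson distSq)

noncomputable section

/-- **The facts on the Dyson amplitude.** -/
theorem dysHyp : R.B4.DysHyp where
  mem Φ Ψ σ := memLp_dyson Φ Ψ σ
  lip Φ Φ' Ψ Ψ' σ := integral_dyson_sub_le Φ Φ' Ψ Ψ' σ
  congr _ _ _ _ σ h h' := dyson_congr h h' σ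
  sum Φ _ _ a y σ := by
    refine dyson_sum_ae Φ _ a (fun i => ofFS (y i)) ?_ σ
    rw [← toFS_eq_sum_iff]
    simp only [toFS_ofFS]

end

end Vale.Agent.P363.H868
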