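import Vale.Agent.P363.H382.Contract
import Vale.Agent.P363.H382.Energy
import Vale.Agent.P363.R.Top.Defs

/-! Bounds for the Dyson amplitude. -/

namespace Vale.Agent.P363.H868

open MeasureTheory Filter Topology
open Vale.Agent.P363.Stmt Vale.Agent.P363.R.Sob Vale.Agent.P363.H382
open Vale.Agent.P363.R.Top (dyson distSq)
open scoped ContDiff ENNReal ComplexConjugate

set_option linter.unusedSectionVars false

noncomputable section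

variable {n : ℕ}

/-- the Dyson amplitude of arbitrary families. -/
def dy (φ : Spn n → Conf n → ℂ) (ψ : Spn (n + 1) → Conf (n + 1) → ℂ) (σ : Fin 2) (x : R3) : ℂ :=
  ∑ s, ∫ y : Conf n, conj (φ s y) * ψ (Fin.cons σ s) (Fin.cons x y)

theorem dyson_eq_dy (Φ : ElectronState n) (Ψ : ElectronState (n + 1)) (σ : Fin 2) :
    dyson Φ Ψ σ = dy Φ.amp Ψ.amp σ := rfl

theorem memLp_dy {φ : Spn n → Conf n → ℂ} {ψ : Spn (n + 1) → Conf (n + 1) → ℂ}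
    (hφ : ∀ s, MemLp (φ s) 2 volume) (hψ : ∀ s, MemLp (ψ s) 2 volume) (σ : Fin 2) :
    MemLp (dy φ ψ σ) 2 volume := by
  have h : dy φ ψ σ = fun x => ∑ s, contr (φ s) (ψ (Fin.cons σ s)) x := rfl
  rw [h]
  exact memLp_finsetSum _ fun s _ => memLp_contr (hφ s) (hψ _)

theorem memLp_dyson (Φ : ElectronState n) (Ψ : ElectronState (n + 1)) (σ : Fin 2) :
    MemLp (dyson Φ Ψ σ) 2 volume :=
  memLp_dy (amp_L2 Φ) (amp_L2 Ψ) σ

/-- Cauchy-Schwarz for complex functions. -/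
theorem cs {X : Type*} [MeasurableSpace X] {μ : Measure X} {f g : X → ℂ} (hf : MemLp f 2 μ)
    (hg : MemLp g 2 μ) : ‖∫ x, conj (f x) * g x ∂μ‖ ≤
      Real.sqrt (∫ x, ‖f x‖ ^ 2 ∂μ) * Real.sqrt (∫ x, ‖g x‖ ^ 2 ∂μ) := by
  have h := norm_inner_le_norm (𝕜 := ℂ) (hf.toLp f) (hg.toLp g)
  have e1 : inner ℂ (hf.toLp f) (hg.toLp g) = ∫ x, conj (f x) * g x ∂μ := by
    rw [L2.inner_def]
    refine integral_congr_ae ?_
    filter_upwards [hf.coeFn_toLp, hg.coeFn_toLp] with x h1 h2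
    rw [h1, h2]
    simp [mul_comm]
  have e2 : ∀ {f : X → ℂ} (hf : MemLp f 2 μ), ‖hf.toLp f‖ = Real.sqrt (∫ x, ‖f x‖ ^ 2 ∂μ) := by
    intro f hf
    have h1 : ‖hf.toLp f‖ ^ 2 = ∫ x, ‖f x‖ ^ 2 ∂μ := H518.norm_toLp_sq hf
    rw [← h1, Real.sqrt_sq (norm_nonneg _)]
  rw [e1, e2 hf, e2 hg] at h
  exact h

theorem ae_memLp_rest_all {ψ : Spn (n + 1) → Conf (n + 1) → ℂ} (hψ : ∀ s, MemLp (ψ s) 2 volume) :
    ∀ᵐ x : R3, ∀ s, MemLp (fun y : Conf n => ψ s (Fin.cons x y)) 2 volume := by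
  rw [ae_all_iff]
  exact fun s => ae_memLp_rest (hψ s)

theorem dy_le {φ : Spn n → Conf n → ℂ} {ψ : Spn (n + 1) → Conf (n + 1) → ℂ}
    (hφ : ∀ s, MemLp (φ s) 2 volume) (hψ : ∀ s, MemLp (ψ s) 2 volume) (σ : Fin 2) :
    ∀ᵐ x : R3, ‖dy φ ψ σ x‖ ^ 2 ≤ (∑ s, ∫ y, ‖φ s y‖ ^ 2) *
      ∑ s, ∫ y : Conf n, ‖ψ (Fin.cons σ s) (Fin.cons x y)‖ ^ 2 := by
  filter_upwards [ae_memLp_rest_all hψ] with x hx
  have h1 : ‖dy φ ψ σ x‖ ≤ ∑ s, Real.sqrt (∫ y, ‖φ s y‖ ^ 2) *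
      Real.sqrt (∫ y : Conf n, ‖ψ (Fin.cons σ s) (Fin.cons x y)‖ ^ 2) :=
    (norm_sum_le _ _).trans (Finset.sum_le_sum fun s _ => cs (hφ s) (hx _))
  have h2 := Finset.sum_mul_sq_le_sq_mul_sq Finset.univ
    (fun s => Real.sqrt (∫ y, ‖φ s y‖ ^ 2))
    (fun s => Real.sqrt (∫ y : Conf n, ‖ψ (Fin.cons σ s) (Fin.cons x y)‖ ^ 2))
  have e1 : ∀ s, Real.sqrt (∫ y, ‖φ s y‖ ^ 2) ^ 2 = ∫ y, ‖φ s y‖ ^ 2 := fun s =>
    Real.sq_sqrt (integral_nonneg fun y => by positivity)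
  have e2 : ∀ s : Spn n, Real.sqrt (∫ y : Conf n, ‖ψ (Fin.cons σ s) (Fin.cons x y)‖ ^ 2) ^ 2
      = ∫ y : Conf n, ‖ψ (Fin.cons σ s) (Fin.cons x y)‖ ^ 2 := fun s =>
    Real.sq_sqrt (integral_nonneg fun y => by positivity)
  simp only [e1, e2] at h2
  exact (pow_le_pow_left₀ (norm_nonneg _) h1 2).trans h2

theorem integrable_sq_rest {f : Conf (n + 1) → ℂ} (hf : MemLp f 2 volume) :
    Integrable (fun x : R3 => ∫ y : Conf n, ‖f (Fin.cons x y)‖ ^ 2) := by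
  have h1 : Integrable (fun x : Conf (n + 1) => ‖f x‖ ^ 2) volume :=
    hf.integrable_norm_pow (by norm_num)
  have h2 := (integrable_unc_iff (n := n)).2 h1
  exact h2.integral_prod_left

theorem integral_sq_rest {f : Conf (n + 1) → ℂ} (hf : MemLp f 2 volume) :
    ∫ x : R3, ∫ y : Conf n, ‖f (Fin.cons x y)‖ ^ 2 = ∫ z, ‖f z‖ ^ 2 := by
  have h1 : Integrable (fun x : Conf (n + 1) => ‖f x‖ ^ 2) volume :=
    hf.integrable_norm_pow (by norm_num)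
  have h2 := (integrable_unc_iff (n := n)).2 h1
  rw [← integral_unc]
  exact (integral_prod _ h2).symm

theorem sum_cons_le (u : Spn (n + 1) → ℝ) (hu : ∀ s, 0 ≤ u s) (σ : Fin 2) :
    ∑ s : Spn n, u (Fin.cons σ s) ≤ ∑ s, u s := by
  have e : ∑ s : Spn (n + 1), u s = ∑ p : Fin 2 × Spn n, u (Fin.cons p.1 p.2) :=
    (Equiv.sum_comp (Fin.consEquiv fun _ => Fin 2) u).symm
  rw [e, Fintype.sum_prod_type]
  exact Finset.single_le_sum (f := fun a : Fin 2 => ∑ s : Spn n, u (Fin.cons a s))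
    (fun a _ => Finset.sum_nonneg fun s _ => hu _) (Finset.mem_univ σ)

theorem integral_dy_le {φ : Spn n → Conf n → ℂ} {ψ : Spn (n + 1) → Conf (n + 1) → ℂ}
    (hφ : ∀ s, MemLp (φ s) 2 volume) (hψ : ∀ s, MemLp (ψ s) 2 volume) (σ : Fin 2) :
    ∫ x, ‖dy φ ψ σ x‖ ^ 2 ≤ (∑ s, ∫ y, ‖φ s y‖ ^ 2) * ∑ s, ∫ z, ‖ψ s z‖ ^ 2 := by
  have hi : Integrable (fun x => (∑ s, ∫ y, ‖φ s y‖ ^ 2) *
      ∑ s, ∫ y : Conf n, ‖ψ (Fin.cons σ s) (Fin.cons x y)‖ ^ 2) :=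
    (integrable_finsetSum _ fun s _ => integrable_sq_rest (hψ _)).const_mul _
  refine (integral_mono_ae ((memLp_dy hφ hψ σ).integrable_norm_pow (by norm_num)) hi
    (dy_le hφ hψ σ)).trans ?_
  rw [integral_const_mul, integral_finsetSum _ fun s _ => integrable_sq_rest (hψ _)]
  refine mul_le_mul_of_nonneg_left ?_ (Finset.sum_nonneg fun s _ =>
    integral_nonneg fun y => by positivity)
  simp only [fun s : Spn n => integral_sq_rest (hψ (Fin.cons σ s))]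
  exact sum_cons_le (fun s => ∫ z, ‖ψ s z‖ ^ 2) (fun s => integral_nonneg fun y => by positivity) σ

theorem integral_dyson_le (Φ : ElectronState n) (Ψ : ElectronState (n + 1)) (σ : Fin 2) :
    ∫ x, ‖dyson Φ Ψ σ x‖ ^ 2 ≤ normSq Φ * normSq Ψ :=
  integral_dy_le (amp_L2 Φ) (amp_L2 Ψ) σ

theorem dy_sub_ae {φ φ0 : Spn n → Conf n → ℂ} {ψ ψ0 : Spn (n + 1) → Conf (n + 1) → ℂ}
    (hφ : ∀ s, MemLp (φ s) 2 volume) (hψ : ∀ s, MemLp (ψ s) 2 volume)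
    (hφ0 : ∀ s, MemLp (φ0 s) 2 volume) (hψ0 : ∀ s, MemLp (ψ0 s) 2 volume) (σ : Fin 2) :
    ∀ᵐ x : R3, dy φ ψ σ x - dy φ0 ψ0 σ x =
      dy (fun s y => φ s y - φ0 s y) ψ σ x + dy φ0 (fun s y => ψ s y - ψ0 s y) σ x := by
  filter_upwards [ae_memLp_rest_all hψ, ae_memLp_rest_all hψ0] with x hx hx0
  unfold dy
  rw [← Finset.sum_sub_distrib, ← Finset.sum_add_distrib]
  refine Finset.sum_congr rfl fun s _ => ?_
  have i1 := H518.integrable_coef (hφ s) (hx (Fin.cons σ s))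
  have i2 := H518.integrable_coef (hφ0 s) (hx (Fin.cons σ s))
  have i3 := H518.integrable_coef (hφ0 s) (hx0 (Fin.cons σ s))
  have e1 : ∫ y : Conf n, conj (φ s y - φ0 s y) * ψ (Fin.cons σ s) (Fin.cons x y)
      = (∫ y : Conf n, conj (φ s y) * ψ (Fin.cons σ s) (Fin.cons x y))
        - ∫ y : Conf n, conj (φ0 s y) * ψ (Fin.cons σ s) (Fin.cons x y) := by
    rw [← integral_sub i1 i2]
    simp only [map_sub, sub_mul]
  have e2 : ∫ y : Conf n, conj (φ0 s y) * (ψ (Fin.cons σ s) (Fin.cons x y) - ψ0 (Fin.cons σ s) (Fin.cons x y))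
      = (∫ y : Conf n, conj (φ0 s y) * ψ (Fin.cons σ s) (Fin.cons x y))
        - ∫ y : Conf n, conj (φ0 s y) * ψ0 (Fin.cons σ s) (Fin.cons x y) := by
    rw [← integral_sub i2 i3]
    simp only [mul_sub]
  rw [e1, e2]
  ring

/-- `L²` continuity of the Dyson amplitude. -/
theorem integral_dyson_sub_le (Φ Φ0 : ElectronState n) (Ψ Ψ0 : ElectronState (n + 1))
    (σ : Fin 2) : ∫ x, ‖dyson Φ Ψ σ x - dyson Φ0 Ψ0 σ x‖ ^ 2 ≤
      2 * (distSq Φ Φ0 * normSq Ψ + normSq Φ0 * distSq Ψ Ψ0) := by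
  have hd : ∀ s, MemLp (fun y => Φ.amp s y - Φ0.amp s y) 2 volume := fun s =>
    (amp_L2 Φ s).sub (amp_L2 Φ0 s)
  have hd' : ∀ s, MemLp (fun y => Ψ.amp s y - Ψ0.amp s y) 2 volume := fun s =>
    (amp_L2 Ψ s).sub (amp_L2 Ψ0 s)
  have h1 := integral_dy_le hd (amp_L2 Ψ) σ
  have h2 := integral_dy_le (amp_L2 Φ0) hd' σ
  have m1 := (memLp_dy hd (amp_L2 Ψ) σ)
  have m2 := (memLp_dy (amp_L2 Φ0) hd' σ)
  have i1 := m1.integrable_norm_pow (p := 2) (by norm_num)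
  have i2 := m2.integrable_norm_pow (p := 2) (by norm_num)
  have i3 := ((memLp_dyson Φ Ψ σ).sub (memLp_dyson Φ0 Ψ0 σ)).integrable_norm_pow (p := 2) (by norm_num)
  have h3 : ∫ x, ‖dyson Φ Ψ σ x - dyson Φ0 Ψ0 σ x‖ ^ 2 ≤
      ∫ x, 2 * (‖dy (fun s y => Φ.amp s y - Φ0.amp s y) Ψ.amp σ x‖ ^ 2
        + ‖dy Φ0.amp (fun s y => Ψ.amp s y - Ψ0.amp s y) σ x‖ ^ 2) := by
    refine integral_mono_ae i3 ((i1.add i2).const_mul 2) ?_
    filter_upwards [dy_sub_ae (amp_L2 Φ) (amp_L2 Ψ) (amp_L2 Φ0) (amp_L2 Ψ0) σ] with x hx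
    simp only [dyson_eq_dy]
    rw [hx]
    have h4 := norm_add_le (dy (fun s y => Φ.amp s y - Φ0.amp s y) Ψ.amp σ x)
      (dy Φ0.amp (fun s y => Ψ.amp s y - Ψ0.amp s y) σ x)
    have h5 := pow_le_pow_left₀ (norm_nonneg _) h4 2
    nlinarith [sq_nonneg (‖dy (fun s y => Φ.amp s y - Φ0.amp s y) Ψ.amp σ x‖ -
      ‖dy Φ0.amp (fun s y => Ψ.amp s y - Ψ0.amp s y) σ x‖)]
  refine h3.trans ?_
  rw [integral_const_mul, integral_add i1 i2]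
  have h6 : (∑ s, ∫ y, ‖Φ.amp s y - Φ0.amp s y‖ ^ 2) = distSq Φ Φ0 := rfl
  have h7 : (∑ s, ∫ y, ‖Ψ.amp s y - Ψ0.amp s y‖ ^ 2) = distSq Ψ Ψ0 := rfl
  have h8 : (∑ s, ∫ y, ‖Ψ.amp s y‖ ^ 2) = normSq Ψ := rfl
  have h9 : (∑ s, ∫ y, ‖Φ0.amp s y‖ ^ 2) = normSq Φ0 := rfl
  rw [h6, h8] at h1
  rw [h7, h9] at h2
  linarith

/-- the Dyson amplitude depends only on the a.e. classes. -/
theorem dyson_congr {Φ Φ' : ElectronState n} {Ψ Ψ' : ElectronState (n + 1)}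
    (h : ∀ s, Φ.amp s =ᵐ[volume] Φ'.amp s) (h' : ∀ s, Ψ.amp s =ᵐ[volume] Ψ'.amp s) (σ : Fin 2) :
    dyson Φ Ψ σ =ᵐ[volume] dyson Φ' Ψ' σ := by
  have h1 : ∀ᵐ x : R3, ∀ s, ∀ᵐ y : Conf n, Ψ.amp s (Fin.cons x y) = Ψ'.amp s (Fin.cons x y) := by
    rw [ae_all_iff]
    intro s
    have h2 : ∀ᵐ p : R3 × Conf n, Ψ.amp s (Fin.cons p.1 p.2) = Ψ'.amp s (Fin.cons p.1 p.2) :=
      (consE_mp (n := n)).quasiMeasurePreserving.ae (h' s)
    exact Measure.ae_ae_of_ae_prod h2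
  filter_upwards [h1] with x hx
  unfold dyson
  refine Finset.sum_congr rfl fun s _ => ?_
  refine integral_congr_ae ?_
  filter_upwards [h s, hx (Fin.cons σ s)] with y h3 h4
  rw [h3, h4]

end

end Vale.Agent.P363.H868
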