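import Vale.Agent.P363.MathlibUsed

/-! Abstract Hilbert space lemmas for block B4b: the space of minimisers of a closed form, its
orthogonal projection, symmetries, and closeness of the projected vectors. -/

namespace Vale.Agent.P363.H868

open Filter Topology
open scoped ComplexConjugate InnerProductSpace

set_option linter.unusedSectionVars false
set_option linter.unusedVariables false

noncomputable section

variable {V H : Type*} [NormedAddCommGroup V] [InnerProductSpace ℂ V] [CompleteSpace V]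
  [NormedAddCommGroup H] [InnerProductSpace ℂ H] [CompleteSpace H]

/-- a form domain: `a` hermitian bounded form on `V`, `J : V → H` the embedding, `E` the bottom of
the spectrum, Gårding inequality. -/
structure FormData (J : V →L[ℂ] H) (a : V →L⋆[ℂ] V →L[ℂ] ℂ) (E : ℝ) : Prop where
  herm : ∀ u v, a v u = conj (a u v)
  low : ∀ v, E * ‖J v‖ ^ 2 ≤ (a v v).re
  gard : ∃ c > 0, ∃ C : ℝ, ∀ v, c * ‖v‖ ^ 2 ≤ (a v v).re + C * ‖J v‖ ^ 2

variable {J : V →L[ℂ] H} {a : V →L⋆[ℂ] V →L[ℂ] ℂ} {E : ℝ}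

/-- the space of minimisers (weak eigenvectors at `E`). -/
def gsp (J : V →L[ℂ] H) (a : V →L⋆[ℂ] V →L[ℂ] ℂ) (E : ℝ) : Submodule ℂ V where
  carrier := {v | ∀ u, a u v = E * ⟪J u, J v⟫_ℂ}
  add_mem' := by
    intro v w hv hw u
    simp only [map_add, inner_add_right, hv u, hw u, mul_add]
  zero_mem' := by intro u; simp
  smul_mem' := by
    intro c v hv u
    simp only [map_smul, inner_smul_right, hv u, smul_eq_mul]
    ring

theorem mem_gsp {v : V} : v ∈ gsp J a E ↔ ∀ u, a u v = E * ⟪J u, J v⟫_ℂ := Iff.rfl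

theorem re_of_mem {v : V} (h : v ∈ gsp J a E) : (a v v).re = E * ‖J v‖ ^ 2 := by
  rw [h v, inner_self_eq_norm_sq_to_K]
  have : (((‖J v‖ : ℝ) : ℂ)) ^ 2 = ((‖J v‖ ^ 2 : ℝ) : ℂ) := by push_cast; rfl
  change ((E : ℂ) * ((‖J v‖ : ℝ) : ℂ) ^ 2).re = _
  rw [this, ← Complex.ofReal_mul, Complex.ofReal_re]

/-- auxiliary: a nonnegative real quadratic polynomial `t² A + 2 t B` near zero forces `B = 0`. -/
theorem quad_zero {A B : ℝ} (h : ∀ t : ℝ, 0 ≤ t ^ 2 * A + 2 * t * B) : B = 0 := by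
  by_contra hB
  have hA : 0 ≤ A := by
    have h1 := h 1
    have h2 := h (-1)
    nlinarith
  have h3 := h (-B / (A + 1))
  have hA1 : 0 < A + 1 := by linarith
  have h4 : (-B / (A + 1)) ^ 2 * A + 2 * (-B / (A + 1)) * B = - (B ^ 2 * (A + 2)) / (A + 1) ^ 2 := by
    field_simp
    ring
  rw [h4] at h3
  have h5 : 0 < B ^ 2 * (A + 2) := by positivity
  have h6 : - (B ^ 2 * (A + 2)) / (A + 1) ^ 2 < 0 := by
    apply div_neg_of_neg_of_pos <;> [linarith; positivity]
  linarith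

theorem mem_gsp_of_re (hF : FormData J a E) {v : V} (h : (a v v).re = E * ‖J v‖ ^ 2) :
    v ∈ gsp J a E := by
  rw [mem_gsp]
  -- first the real part, for every `u`
  have key : ∀ u, (a u v).re = (E * ⟪J u, J v⟫_ℂ).re := by
    intro u
    have h1 : ∀ t : ℝ, 0 ≤ t ^ 2 * ((a u u).re - E * ‖J u‖ ^ 2)
        + 2 * t * ((a u v).re - (E * ⟪J u, J v⟫_ℂ).re) := by
      intro t
      have h2 := hF.low (v + (t : ℂ) • u)
      have e1 : (a (v + (t : ℂ) • u) (v + (t : ℂ) • u)).re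
          = (a v v).re + t ^ 2 * (a u u).re + 2 * t * (a u v).re := by
        have hh := hF.herm u v
        simp only [map_add, map_smulₛₗ, add_apply, smul_apply, smul_eq_mul,
          Complex.conj_ofReal, RingHom.id_apply]
        rw [hh]
        simp only [Complex.add_re, Complex.mul_re, Complex.ofReal_re, Complex.ofReal_im,
          Complex.conj_re, zero_mul, sub_zero]
        ring
      have e2 : ‖J (v + (t : ℂ) • u)‖ ^ 2
          = ‖J v‖ ^ 2 + t ^ 2 * ‖J u‖ ^ 2 + 2 * t * (⟪J u, J v⟫_ℂ).re := by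
        rw [map_add, map_smul, @norm_add_sq ℂ]
        rw [inner_smul_right, norm_smul]
        have : ⟪J v, J u⟫_ℂ = conj ⟪J u, J v⟫_ℂ := (inner_conj_symm _ _).symm
        rw [this]
        simp only [RCLike.re_to_complex, Complex.mul_re, Complex.ofReal_re, Complex.ofReal_im,
          Complex.conj_re, zero_mul, sub_zero, Complex.norm_real, Real.norm_eq_abs, mul_pow,
          sq_abs]
        ring
      rw [e1, e2, h] at h2
      have e3 : (E * ⟪J u, J v⟫_ℂ).re = E * (⟪J u, J v⟫_ℂ).re := by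
        simp
      rw [e3]
      nlinarith [h2]
    have h3 := quad_zero h1
    linarith
  intro u
  refine Complex.ext (key u) ?_
  have h4 := key (Complex.I • u)
  rw [map_smul J, inner_smul_left, map_smulₛₗ a, smul_apply, smul_eq_mul, Complex.conj_I] at h4
  have e1 : ∀ z : ℂ, (-Complex.I * z).re = z.im := fun z => by simp
  have e2 : ∀ z : ℂ, ((E : ℂ) * (-Complex.I * z)).re = ((E : ℂ) * z).im := fun z => by simp
  rw [e1, e2] at h4
  exact h4

theorem mem_gsp_iff (hF : FormData J a E) {v : V} :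
    v ∈ gsp J a E ↔ (a v v).re = E * ‖J v‖ ^ 2 :=
  ⟨re_of_mem, mem_gsp_of_re hF⟩

theorem isClosed_gsp (J : V →L[ℂ] H) (a : V →L⋆[ℂ] V →L[ℂ] ℂ) (E : ℝ) :
    IsClosed (gsp J a E : Set V) := by
  have : (gsp J a E : Set V) = ⋂ u, {v | a u v = E * ⟪J u, J v⟫_ℂ} := by
    ext v; simp [mem_gsp]
  rw [this]
  refine isClosed_iInter fun u => isClosed_eq (a u).continuous ?_
  exact continuous_const.mul (continuous_const.inner J.continuous)

theorem norm_le_of_mem (hF : FormData J a E) :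
    ∃ K : ℝ, 0 < K ∧ ∀ v ∈ gsp J a E, ‖v‖ ≤ K * ‖J v‖ := by
  obtain ⟨c, hc, C, h⟩ := hF.gard
  refine ⟨Real.sqrt ((|E| + |C| + 1) / c), by positivity, fun v hv => ?_⟩
  have h1 := h v
  rw [re_of_mem hv] at h1
  have h2 : ‖v‖ ^ 2 ≤ ((|E| + |C| + 1) / c) * ‖J v‖ ^ 2 := by
    rw [div_mul_eq_mul_div, le_div_iff₀ hc]
    nlinarith [le_abs_self E, le_abs_self C, sq_nonneg ‖J v‖]
  have h3 : ‖v‖ = Real.sqrt (‖v‖ ^ 2) := (Real.sqrt_sq (norm_nonneg _)).symm
  rw [h3]
  refine (Real.sqrt_le_sqrt h2).trans ?_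
  rw [Real.sqrt_mul (by positivity), Real.sqrt_sq (norm_nonneg _)]

/-- the restriction of `J` to the minimisers. -/
def Jg (J : V →L[ℂ] H) (a : V →L⋆[ℂ] V →L[ℂ] ℂ) (E : ℝ) : gsp J a E →L[ℂ] H :=
  J.comp (gsp J a E).subtypeL

@[simp] theorem Jg_apply (v : gsp J a E) : Jg J a E v = J v := rfl

theorem antilip (hF : FormData J a E) : ∃ K, AntilipschitzWith K (Jg J a E) := by
  obtain ⟨K, hK, h⟩ := norm_le_of_mem hF
  refine ⟨⟨K, hK.le⟩, ?_⟩
  refine AddMonoidHomClass.antilipschitz_of_bound _ fun v => ?_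
  exact h v v.2

theorem Jg_injective (hF : FormData J a E) : Function.Injective (Jg J a E) := by
  obtain ⟨K, h⟩ := antilip hF
  exact h.injective

theorem range_complete (hF : FormData J a E) :
    IsComplete (LinearMap.range (Jg J a E : gsp J a E →ₗ[ℂ] H) : Set H) := by
  obtain ⟨K, h⟩ := antilip hF
  have : CompleteSpace (gsp J a E) := (isClosed_gsp J a E).completeSpace_coe
  have h1 : IsComplete (Set.range (Jg J a E)) :=
    (h.isUniformInducing (Jg J a E).uniformContinuous).isComplete_range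
  have h2 : (LinearMap.range (Jg J a E : gsp J a E →ₗ[ℂ] H) : Set H) = Set.range (Jg J a E) := by
    ext x; simp
  rw [h2]
  exact h1

/-- the minimisers as a subspace of `H`. -/
def gspH (J : V →L[ℂ] H) (a : V →L⋆[ℂ] V →L[ℂ] ℂ) (E : ℝ) : Submodule ℂ H :=
  LinearMap.range (Jg J a E : gsp J a E →ₗ[ℂ] H)

theorem mem_gspH {h : H} : h ∈ gspH J a E ↔ ∃ v ∈ gsp J a E, J v = h := by
  unfold gspH
  rw [LinearMap.mem_range]
  constructor
  · rintro ⟨v, rfl⟩
    exact ⟨v, v.2, rfl⟩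
  · rintro ⟨v, hv, rfl⟩
    exact ⟨⟨v, hv⟩, rfl⟩

theorem hasProj (hF : FormData J a E) : (gspH J a E).HasOrthogonalProjection := by
  have : CompleteSpace (gspH J a E) := (range_complete hF).completeSpace_coe
  infer_instance

/-- For every `h` there is a unique minimiser whose image is the orthogonal projection of `h`;
it is characterised by orthogonality of `h - J x` to all minimisers. -/
theorem exists_proj (hF : FormData J a E) (h : H) :
    ∃ x ∈ gsp J a E, ∀ y ∈ gsp J a E, ⟪J y, h⟫_ℂ = ⟪J y, J x⟫_ℂ := by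
  have := hasProj hF
  have h1 : (gspH J a E).starProjection h ∈ gspH J a E := Submodule.coe_mem _
  obtain ⟨x, hx, hx2⟩ := mem_gspH.1 h1
  refine ⟨x, hx, fun y hy => ?_⟩
  rw [hx2]
  have h2 := (gspH J a E).starProjection_inner_eq_zero h (J y) (mem_gspH.2 ⟨y, hy, rfl⟩)
  rw [inner_sub_left, sub_eq_zero] at h2
  rw [← inner_conj_symm, h2, inner_conj_symm]

open Classical in
/-- the minimiser `P h` (as an element of `V`). -/
def gpr (J : V →L[ℂ] H) (a : V →L⋆[ℂ] V →L[ℂ] ℂ) (E : ℝ) (h : H) : V :=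
  if hx : ∃ x ∈ gsp J a E, ∀ y ∈ gsp J a E, ⟪J y, h⟫_ℂ = ⟪J y, J x⟫_ℂ then hx.choose else 0

theorem gpr_mem (hF : FormData J a E) (h : H) : gpr J a E h ∈ gsp J a E := by
  unfold gpr
  rw [dif_pos (exists_proj hF h)]
  exact (exists_proj hF h).choose_spec.1

theorem inner_gpr (hF : FormData J a E) (h : H) {y : V} (hy : y ∈ gsp J a E) :
    ⟪J y, h⟫_ℂ = ⟪J y, J (gpr J a E h)⟫_ℂ := by
  unfold gpr
  rw [dif_pos (exists_proj hF h)]
  exact (exists_proj hF h).choose_spec.2 y hy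

theorem gpr_unique (hF : FormData J a E) (h : H) {x : V} (hx : x ∈ gsp J a E)
    (hy : ∀ y ∈ gsp J a E, ⟪J y, h⟫_ℂ = ⟪J y, J x⟫_ℂ) : gpr J a E h = x := by
  have h1 : x - gpr J a E h ∈ gsp J a E := Submodule.sub_mem _ hx (gpr_mem hF h)
  have h2 := hy _ h1
  have h3 := inner_gpr hF h h1
  have h4 : ⟪J (x - gpr J a E h), J (x - gpr J a E h)⟫_ℂ = 0 := by
    conv_lhs => rw [map_sub J x, inner_sub_right, ← map_sub]
    rw [← h2, ← h3, sub_self]
  have h5 : J (x - gpr J a E h) = 0 := inner_self_eq_zero.1 h4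
  have h6 := Jg_injective hF (a₁ := ⟨_, h1⟩) (a₂ := 0) (by simpa using h5)
  have h7 : x - gpr J a E h = 0 := congrArg Subtype.val h6
  exact (sub_eq_zero.1 h7).symm

theorem gpr_add (hF : FormData J a E) (h h' : H) :
    gpr J a E (h + h') = gpr J a E h + gpr J a E h' :=
  gpr_unique hF _ (Submodule.add_mem _ (gpr_mem hF h) (gpr_mem hF h')) fun y hy => by
    rw [inner_add_right, map_add, inner_add_right, ← inner_gpr hF h hy, ← inner_gpr hF h' hy]

theorem gpr_smul (hF : FormData J a E) (c : ℂ) (h : H) :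
    gpr J a E (c • h) = c • gpr J a E h :=
  gpr_unique hF _ (Submodule.smul_mem _ _ (gpr_mem hF h)) fun y hy => by
    rw [inner_smul_right, map_smul, inner_smul_right, ← inner_gpr hF h hy]

theorem gpr_sum (hF : FormData J a E) {ι : Type*} (s : Finset ι) (f : ι → H) :
    gpr J a E (∑ i ∈ s, f i) = ∑ i ∈ s, gpr J a E (f i) := by
  classical
  induction s using Finset.induction_on with
  | empty =>
    simp only [Finset.sum_empty]
    exact gpr_unique hF _ (Submodule.zero_mem _) fun y hy => by simp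
  | insert i s hi ih => rw [Finset.sum_insert hi, Finset.sum_insert hi, gpr_add hF, ih]

/-- symmetries: `U` on `V`, `W` on `H`, intertwined by `J`; `U` and `U'` (its inverse on the
minimisers, on the level of `H`) preserve the minimisers. -/
theorem gpr_comm (hF : FormData J a E) (U U' : V → V) (W : H ≃ₗᵢ[ℂ] H)
    (hU : ∀ v ∈ gsp J a E, U v ∈ gsp J a E ∧ J (U v) = W (J v))
    (hU' : ∀ v ∈ gsp J a E, U' v ∈ gsp J a E ∧ J (U' v) = W.symm (J v)) (h : H) :
    gpr J a E (W h) = U (gpr J a E h) := by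
  refine gpr_unique hF _ (hU _ (gpr_mem hF h)).1 fun y hy => ?_
  rw [(hU _ (gpr_mem hF h)).2]
  have h1 : ∀ z, ⟪J y, W z⟫_ℂ = ⟪J (U' y), z⟫_ℂ := by
    intro z
    rw [(hU' y hy).2, ← W.inner_map_map (W.symm (J y)) z, W.apply_symm_apply]
  rw [h1, h1, inner_gpr hF h (hU' y hy).1]

/-! ### closeness -/

theorem inner_self_gpr (hF : FormData J a E) (h : H) :
    ⟪h, J (gpr J a E h)⟫_ℂ = (‖J (gpr J a E h)‖ ^ 2 : ℝ) := by
  have h1 := inner_gpr hF h (gpr_mem hF h)
  rw [← inner_conj_symm, h1, inner_self_eq_norm_sq_to_K]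
  simp

theorem norm_sub_gpr_sq (hF : FormData J a E) (h : H) :
    ‖h - J (gpr J a E h)‖ ^ 2 = ‖h‖ ^ 2 - ‖J (gpr J a E h)‖ ^ 2 := by
  rw [@norm_sub_sq ℂ, inner_self_gpr hF]
  simp only [RCLike.re_to_complex, Complex.ofReal_re]
  ring

/-- the matrix of the projection in a family `b`. -/
def pm (J : V →L[ℂ] H) (a : V →L⋆[ℂ] V →L[ℂ] ℂ) (E : ℝ) (x y : H) : ℂ := ⟪x, J (gpr J a E y)⟫_ℂ

theorem pm_symm (hF : FormData J a E) (W : H ≃ₗᵢ[ℂ] H) (U : V → V)
    (hU : ∀ v, J (U v) = W (J v)) (hc : ∀ h, gpr J a E (W h) = U (gpr J a E h)) (x y : H) :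
    pm J a E (W x) (W y) = pm J a E x y := by
  unfold pm
  rw [hc, hU, W.inner_map_map]

/-- If the projection acts on the span of an orthonormal family `b` as a scalar and some
normalised minimiser is `ε`-close to this span, then every `b i` is `ε`-close to its projection. -/
theorem close_of_scalar (hF : FormData J a E) {ι : Type*} [Fintype ι] [DecidableEq ι] {b : ι → H}
    (hb : Orthonormal ℂ b) (i₀ : ι)
    (hoff : ∀ i j, i ≠ j → pm J a E (b i) (b j) = 0)
    (hdiag : ∀ i, pm J a E (b i) (b i) = pm J a E (b i₀) (b i₀))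
    {v : V} (hv : v ∈ gsp J a E) (hv1 : ‖J v‖ = 1) {ε : ℝ}
    (hε : 1 - ε ≤ ∑ i, ‖⟪b i, J v⟫_ℂ‖ ^ 2) (hε1 : ε < 1) (i : ι) :
    ‖b i - J (gpr J a E (b i))‖ ^ 2 ≤ ε := by
  set t : ℝ := ‖J (gpr J a E (b i₀))‖ ^ 2 with ht
  have hd : ∀ i, pm J a E (b i) (b i) = (t : ℂ) := by
    intro i
    rw [hdiag i, pm, inner_self_gpr hF]
  have hnorm : ∀ i, ‖J (gpr J a E (b i))‖ ^ 2 = t := by
    intro i
    have h1 := hd i
    rw [pm, inner_self_gpr hF] at h1
    exact_mod_cast h1
  set c : ι → ℂ := fun i => ⟪b i, J v⟫_ℂ with hc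
  set w : H := ∑ i, c i • b i with hw
  set S : ℝ := ∑ i, ‖c i‖ ^ 2 with hS
  have hS0 : 0 < S := by linarith
  -- `⟪w, P w⟫ = t S`
  have hwPw : ⟪w, J (gpr J a E w)⟫_ℂ = (t * S : ℝ) := by
    have e1 : J (gpr J a E w) = ∑ j, c j • J (gpr J a E (b j)) := by
      rw [hw, gpr_sum hF, map_sum]
      refine Finset.sum_congr rfl fun j _ => ?_
      rw [gpr_smul hF, map_smul]
    rw [e1, hw, sum_inner]
    have e2 : ∀ i, ⟪c i • b i, ∑ j, c j • J (gpr J a E (b j))⟫_ℂ = ((t * ‖c i‖ ^ 2 : ℝ) : ℂ) := by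
      intro i
      rw [inner_sum, Finset.sum_eq_single i]
      · rw [inner_smul_left, inner_smul_right]
        have := hd i
        unfold pm at this
        rw [this]
        have h3 : conj (c i) * c i = ((‖c i‖ ^ 2 : ℝ) : ℂ) := by
          rw [mul_comm, Complex.mul_conj, Complex.normSq_eq_norm_sq]
        rw [← mul_assoc, h3]
        push_cast
        ring
      · intro j _ hj
        rw [inner_smul_left, inner_smul_right]
        have := hoff i j (Ne.symm hj)
        unfold pm at this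
        rw [this]
        simp
      · intro h; exact absurd (Finset.mem_univ _) h
    simp only [e2]
    rw [hS, Finset.mul_sum]
    push_cast
    rfl
  -- `⟪J v, w⟫ = S`
  have hvw : ⟪J v, w⟫_ℂ = (S : ℂ) := by
    rw [hw, inner_sum]
    have e2 : ∀ i, ⟪J v, c i • b i⟫_ℂ = ((‖c i‖ ^ 2 : ℝ) : ℂ) := by
      intro i
      rw [inner_smul_right, ← inner_conj_symm (J v) (b i), Complex.mul_conj,
        Complex.normSq_eq_norm_sq]
    simp only [e2]
    rw [hS]
    push_cast
    rfl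
  -- Cauchy-Schwarz
  have h1 : ⟪J v, w⟫_ℂ = ⟪J v, J (gpr J a E w)⟫_ℂ := inner_gpr hF w hv
  have h2 : S ≤ ‖J (gpr J a E w)‖ := by
    have h3 : ‖⟪J v, J (gpr J a E w)⟫_ℂ‖ ≤ ‖J v‖ * ‖J (gpr J a E w)‖ := norm_inner_le_norm _ _
    rw [← h1, hvw, hv1, one_mul] at h3
    simpa [abs_of_pos hS0] using h3
  have h4 : ‖J (gpr J a E w)‖ ^ 2 = t * S := by
    have h5 := inner_self_gpr hF w
    rw [hwPw] at h5
    exact_mod_cast h5.symm
  have h6 : S ^ 2 ≤ t * S := by
    rw [← h4]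
    exact pow_le_pow_left₀ hS0.le h2 2
  have h7 : S ≤ t := by
    have : S * S ≤ t * S := by nlinarith
    exact le_of_mul_le_mul_right this hS0
  rw [norm_sub_gpr_sq hF, hnorm, hb.1 i]
  linarith

end

end Vale.Agent.P363.H868
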