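import Vale.Agent.P363.H868.Actions
import Vale.Agent.P363.H868.Proj
import Vale.Agent.P363.H868.Dyson

/-! Symmetries as unitary operators of the `L²` state space, and their action on the projection
onto the minimisers. -/

namespace Vale.Agent.P363.H868

open MeasureTheory Filter Topology
open Vale.Agent.P363.Stmt Vale.Agent.P363.R.Sob Vale.Agent.P363.H382
open Vale.Agent.P363.R.Top (dyson distSq inn)
open scoped ContDiff ENNReal ComplexConjugate InnerProductSpace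

set_option linter.unusedSectionVars false

noncomputable section

variable {N : ℕ}

/-! ### the class of a state in the `L²` state space -/

/-- the amplitude as an element of the `L²` state space. -/
def JS (Ψ : ElectronState N) : LS N := am (amb Ψ)

@[simp] theorem JS_apply (Ψ : ElectronState N) (s : Spn N) :
    JS Ψ s = MemLp.toLp (Ψ.amp s) (amp_L2 Ψ s) := rfl

theorem JS_ae (Ψ : ElectronState N) (s : Spn N) : JS Ψ s =ᵐ[volume] Ψ.amp s :=
  MemLp.coeFn_toLp (amp_L2 Ψ s)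

theorem JS_eq_iff {Ψ Φ : ElectronState N} : JS Ψ = JS Φ ↔ ∀ s, Ψ.amp s =ᵐ[volume] Φ.amp s := by
  constructor
  · intro h s
    have h1 := congrFun (congrArg WithLp.ofLp h) s
    simp only [JS_apply] at h1
    exact (MemLp.toLp_eq_toLp_iff _ _).1 h1
  · intro h
    refine PiLp.ext fun s => ?_
    simp only [JS_apply]
    exact (MemLp.toLp_eq_toLp_iff _ _).2 (h s)

theorem inner_JS (Φ Ψ : ElectronState N) : ⟪JS Φ, JS Ψ⟫_ℂ = inn Φ Ψ := by
  rw [PiLp.inner_apply]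
  unfold inn
  refine Finset.sum_congr rfl fun s _ => ?_
  rw [L2.inner_def]
  refine integral_congr_ae ?_
  filter_upwards [JS_ae Φ s, JS_ae Ψ s] with x h1 h2
  rw [h1, h2]
  simp [mul_comm]

theorem norm_JS_sq (Ψ : ElectronState N) : ‖JS Ψ‖ ^ 2 = normSq Ψ := by
  rw [PiLp.norm_sq_eq_of_L2]
  unfold normSq
  exact Finset.sum_congr rfl fun s _ => H518.norm_toLp_sq (amp_L2 Ψ s)

theorem norm_JS_sub_sq (Φ Ψ : ElectronState N) : ‖JS Φ - JS Ψ‖ ^ 2 = distSq Φ Ψ := by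
  rw [PiLp.norm_sq_eq_of_L2]
  unfold distSq
  refine Finset.sum_congr rfl fun s _ => ?_
  have h : (JS Φ - JS Ψ) s = ((amp_L2 Φ s).sub (amp_L2 Ψ s)).toLp _ := by
    rw [PiLp.sub_apply, JS_apply, JS_apply, MemLp.toLp_sub]
  rw [h, H518.norm_toLp_sq]
  rfl

/-- the embedding of the form domain. -/
def JF : FS N →L[ℂ] LS N := am.comp (FSub N).subtypeL

theorem JF_toFS (Ψ : ElectronState N) : JF (toFS Ψ) = JS Ψ := rfl

theorem JS_ofFS (u : FS N) : JS (ofFS u) = JF u := by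
  have h := congrArg JF (toFS_ofFS u)
  rw [JF_toFS] at h
  exact h

theorem ofFS_toFS_ae (Ψ : ElectronState N) (s : Spn N) :
    (ofFS (toFS Ψ)).amp s =ᵐ[volume] Ψ.amp s := amb_none_ae Ψ s

theorem energy_ofFS_toFS (w : Conf N → ℝ) (Ψ : ElectronState N) :
    energy w (ofFS (toFS Ψ)) = energy w Ψ := energy_congr w _ _ (ofFS_toFS_ae Ψ)

/-- `JF` is injective. -/
theorem JF_injective : Function.Injective (JF (N := N)) := by
  intro u v h
  have h1 : JS (ofFS u) = JS (ofFS v) := by rw [JS_ofFS, JS_ofFS, h]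
  have h2 := JS_eq_iff.1 h1
  have h3 := grad_unique (ofFS u) (ofFS v) h2
  rw [← toFS_ofFS u, ← toFS_ofFS v]
  apply Subtype.ext
  refine PiLp.ext fun p => ?_
  rcases p with ⟨s, _ | ⟨i, k⟩⟩
  · exact (MemLp.toLp_eq_toLp_iff (amp_L2 _ s) (amp_L2 _ s)).2 (h2 s)
  · exact (MemLp.toLp_eq_toLp_iff (grad_L2 _ s i k) (grad_L2 _ s i k)).2 (h3 s i k)

theorem toFS_eq_iff {Ψ Φ : ElectronState N} : toFS Ψ = toFS Φ ↔ JS Ψ = JS Φ :=
  ⟨fun h => by rw [← JF_toFS, ← JF_toFS, h], fun h => JF_injective (by rw [JF_toFS, JF_toFS, h])⟩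

/-! ### unitary operators on the state space -/

/-- a linear isometric equivalence from two inverse linear isometries. -/
def liEquiv {X : Type*} [NormedAddCommGroup X] [NormedSpace ℂ X] (f g : X →ₗᵢ[ℂ] X)
    (h : ∀ x, f (g x) = x) (h' : ∀ x, g (f x) = x) : X ≃ₗᵢ[ℂ] X where
  toLinearEquiv := { f.toLinearMap with invFun := g, left_inv := h', right_inv := h }
  norm_map' := f.norm_map

@[simp] theorem liEquiv_apply {X : Type*} [NormedAddCommGroup X] [NormedSpace ℂ X]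
    (f g : X →ₗᵢ[ℂ] X) (h) (h') (x : X) : liEquiv f g h h' x = f x := rfl

@[simp] theorem liEquiv_symm_apply {X : Type*} [NormedAddCommGroup X] [NormedSpace ℂ X]
    (f g : X →ₗᵢ[ℂ] X) (h) (h') (x : X) : (liEquiv f g h h').symm x = g x := rfl

/-- composition with `rotE A` on `L²(Conf N)`. -/
def rotI (A : R3 ≃ₗᵢ[ℝ] R3) : LC N →ₗᵢ[ℂ] LC N :=
  Lp.compMeasurePreservingₗᵢ ℂ (rotE A) (rotE_mp A)

theorem rotI_ae (A : R3 ≃ₗᵢ[ℝ] R3) (f : LC N) :
    rotI A f =ᵐ[volume] fun x => f (rotE A x) :=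
  Lp.coeFn_compMeasurePreserving f (rotE_mp A)

theorem rotI_symm (A : R3 ≃ₗᵢ[ℝ] R3) (f : LC N) : rotI A (rotI A.symm f) = f := by
  refine Lp.ext ?_
  have h1 := rotI_ae A (rotI A.symm f)
  have h2 := (rotE_mp (N := N) A).quasiMeasurePreserving.ae_eq_comp (rotI_ae A.symm f)
  filter_upwards [h1, h2] with x a1 a2
  rw [a1]
  have a3 : (rotI A.symm f) (rotE A x) = f (rotE A.symm (rotE A x)) := a2
  rw [a3, rotE_symm_mp]

/-- composition with `rotE A` as a unitary. -/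
def rotLC (A : R3 ≃ₗᵢ[ℝ] R3) : LC N ≃ₗᵢ[ℂ] LC N :=
  liEquiv (rotI A) (rotI A.symm) (rotI_symm A) (fun f => by
    have := rotI_symm A.symm f
    rwa [A.symm_symm] at this)

/-- the operator `f ↦ (s ↦ c s • T (f (e s)))`. -/
def mixI (T : LC N →ₗᵢ[ℂ] LC N) (e : Spn N ≃ Spn N) (c : Spn N → ℂ) (hc : ∀ s, ‖c s‖ = 1) :
    LS N →ₗᵢ[ℂ] LS N where
  toFun f := WithLp.toLp 2 (fun s => c s • T (f (e s)))
  map_add' f g := by
    refine PiLp.ext fun s => ?_
    simp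
  map_smul' a f := by
    refine PiLp.ext fun s => ?_
    simp [smul_comm (c s) a]
  norm_map' f := by
    have h : ‖(WithLp.toLp 2 (fun s => c s • T (f (e s))) : LS N)‖ ^ 2 = ‖f‖ ^ 2 := by
      rw [PiLp.norm_sq_eq_of_L2, PiLp.norm_sq_eq_of_L2, ← Equiv.sum_comp e fun s => ‖f s‖ ^ 2]
      refine Finset.sum_congr rfl fun s _ => ?_
      simp [norm_smul, hc]
    exact (sq_eq_sq₀ (norm_nonneg _) (norm_nonneg _)).1 h

@[simp] theorem mixI_apply (T : LC N →ₗᵢ[ℂ] LC N) (e : Spn N ≃ Spn N) (c : Spn N → ℂ)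
    (hc : ∀ s, ‖c s‖ = 1) (f : LS N) (s : Spn N) : mixI T e c hc f s = c s • T (f (e s)) := rfl

/-- the unitary `f ↦ (s ↦ c s • T (f (e s)))`. -/
def mixL (T : LC N ≃ₗᵢ[ℂ] LC N) (e : Spn N ≃ Spn N) (c : Spn N → ℂ) (hc : ∀ s, ‖c s‖ = 1) :
    LS N ≃ₗᵢ[ℂ] LS N :=
  liEquiv (mixI T.toLinearIsometry e c hc)
    (mixI T.symm.toLinearIsometry e.symm (fun s => (c (e.symm s))⁻¹) (fun s => by simp [hc]))
    (fun f => by
      refine PiLp.ext fun s => ?_
      have h0 : c s ≠ 0 := fun h => by have := hc s; simp [h] at this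
      simp [h0])
    (fun f => by
      refine PiLp.ext fun s => ?_
      have h0 : c (e.symm s) ≠ 0 := fun h => by have := hc (e.symm s); simp [h] at this
      simp [h0])

theorem mixL_apply (T : LC N ≃ₗᵢ[ℂ] LC N) (e : Spn N ≃ Spn N) (c : Spn N → ℂ)
    (hc : ∀ s, ‖c s‖ = 1) (f : LS N) (s : Spn N) : mixL T e c hc f s = c s • T (f (e s)) := rfl

theorem mixL_symm_apply (T : LC N ≃ₗᵢ[ℂ] LC N) (e : Spn N ≃ Spn N) (c : Spn N → ℂ)
    (hc : ∀ s, ‖c s‖ = 1) (f : LS N) (s : Spn N) :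
    (mixL T e c hc).symm f s = (c (e.symm s))⁻¹ • T.symm (f (e.symm s)) := rfl

/-! ### symmetries of the energy -/

/-- `act` is a symmetry of the energy, implemented by the unitary `W`, with inverse `inv`. -/
structure IsSym (w : Conf N → ℝ) (act inv : ElectronState N → ElectronState N)
    (W : LS N ≃ₗᵢ[ℂ] LS N) : Prop where
  hact : ∀ Ψ, JS (act Ψ) = W (JS Ψ)
  hinv : ∀ Ψ, JS (inv Ψ) = W.symm (JS Ψ)
  eact : ∀ Ψ, energy w (act Ψ) = energy w Ψ
  einv : ∀ Ψ, energy w (inv Ψ) = energy w Ψ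

/-- rotations. -/
def rotL (A : R3 ≃ₗᵢ[ℝ] R3) : LS N ≃ₗᵢ[ℂ] LS N :=
  mixL (rotLC A) (Equiv.refl _) (fun _ => 1) (fun _ => by simp)

theorem toLp_rot (A : R3 ≃ₗᵢ[ℝ] R3) {f : Conf N → ℂ} (hf : MemLp f 2 volume)
    (hf' : MemLp (fun x => f (rotE A x)) 2 volume) : hf'.toLp _ = rotI A (hf.toLp f) := by
  refine Lp.ext ?_
  have h2 := (rotE_mp (N := N) A).quasiMeasurePreserving.ae_eq_comp hf.coeFn_toLp
  filter_upwards [hf'.coeFn_toLp, rotI_ae A (hf.toLp f), h2] with x a1 a2 a3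
  rw [a1, a2]
  exact a3.symm

theorem isSym_rot (A : R3 ≃ₗᵢ[ℝ] R3) {w : Conf N → ℝ} (hw : ∀ (A : R3 ≃ₗᵢ[ℝ] R3) x, w (rotE A x) = w x) :
    IsSym w (rot A) (rot A.symm) (rotL A) where
  hact Ψ := by
    refine PiLp.ext fun s => ?_
    rw [rotL, mixL_apply, one_smul, JS_apply, Equiv.refl_apply, JS_apply]
    exact toLp_rot A (amp_L2 Ψ s) _
  hinv Ψ := by
    refine PiLp.ext fun s => ?_
    rw [rotL, mixL_symm_apply, inv_one, one_smul, JS_apply, Equiv.refl_symm, Equiv.refl_apply,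
      JS_apply]
    exact toLp_rot A.symm (amp_L2 Ψ s) _
  eact Ψ := energy_rot A (hw A) Ψ
  einv Ψ := energy_rot A.symm (hw A.symm) Ψ

theorem isSym_rot_pot (A : R3 ≃ₗᵢ[ℝ] R3) (lam : ℝ) :
    IsSym (N := N) (R.Top.pot lam) (rot A) (rot A.symm) (rotL A) :=
  isSym_rot A fun A x => pot_rotE A lam x

/-- spin permutations. -/
def flipL (τ : Equiv.Perm (Fin 2)) : LS N ≃ₗᵢ[ℂ] LS N :=
  mixL (LinearIsometryEquiv.refl ℂ (LC N)) (spinEquiv τ) (fun _ => 1) (fun _ => by simp)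

theorem isSym_flip (τ : Equiv.Perm (Fin 2)) (w : Conf N → ℝ) :
    IsSym w (spinPerm τ) (spinPerm τ.symm) (flipL τ) where
  hact Ψ := by
    refine PiLp.ext fun s => ?_
    rw [flipL, mixL_apply, one_smul]
    rfl
  hinv Ψ := by
    refine PiLp.ext fun s => ?_
    rw [flipL, mixL_symm_apply, inv_one, one_smul]
    rfl
  eact Ψ := energy_spinPerm τ w Ψ
  einv Ψ := energy_spinPerm τ.symm w Ψ

/-- spin phases. -/
def phaseL (ζ : Fin 2 → ℂ) (h : ∀ a, ‖ζ a‖ = 1) : LS N ≃ₗᵢ[ℂ] LS N :=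
  mixL (LinearIsometryEquiv.refl ℂ (LC N)) (Equiv.refl _) (spinPhase ζ) (norm_spinPhase h)

theorem phaseL_apply (ζ : Fin 2 → ℂ) (h : ∀ a, ‖ζ a‖ = 1) (f : LS N) (s : Spn N) :
    phaseL ζ h f s = spinPhase ζ s • f s := rfl

theorem toLp_const_mul {f : Conf N → ℂ} (c : ℂ) (hf : MemLp f 2 volume)
    (hf' : MemLp (fun x => c * f x) 2 volume) : hf'.toLp _ = c • hf.toLp f := by
  refine Lp.ext ?_
  filter_upwards [hf'.coeFn_toLp, Lp.coeFn_smul c (hf.toLp f), hf.coeFn_toLp] with x a1 a2 a3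
  rw [a1, a2, Pi.smul_apply, a3, smul_eq_mul]

/-- multiplication by the phase. -/
def phase (ζ : Fin 2 → ℂ) (Ψ : ElectronState N) : ElectronState N :=
  spinMul (spinPhase ζ) (spinPhase_perm ζ) Ψ

theorem spinPhase_inv (ζ : Fin 2 → ℂ) (s : Spn N) :
    spinPhase (fun a => (ζ a)⁻¹) s = (spinPhase ζ s)⁻¹ := by
  simp [spinPhase, Finset.prod_inv_distrib]

theorem isSym_phase (ζ : Fin 2 → ℂ) (h : ∀ a, ‖ζ a‖ = 1) (w : Conf N → ℝ) :
    IsSym w (phase ζ) (phase fun a => (ζ a)⁻¹) (phaseL ζ h) where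
  hact Ψ := by
    refine PiLp.ext fun s => ?_
    rw [phaseL_apply, JS_apply, JS_apply]
    exact toLp_const_mul _ (amp_L2 Ψ s) _
  hinv Ψ := by
    refine PiLp.ext fun s => ?_
    have h1 : (phaseL ζ h).symm (JS Ψ) s = (spinPhase ζ s)⁻¹ • (JS Ψ s) := rfl
    rw [h1, JS_apply, JS_apply, ← spinPhase_inv]
    exact toLp_const_mul _ (amp_L2 Ψ s) _
  eact Ψ := energy_spinMul _ _ (norm_spinPhase h) w Ψ
  einv Ψ := energy_spinMul _ _ (norm_spinPhase fun a => by simp [h]) w Ψ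

/-! ### projection onto the minimisers -/

variable {w : Conf N → ℝ} {a : FS N →L⋆[ℂ] FS N →L[ℂ] ℂ} {E : ℝ}

/-- the form `a` represents the energy with potential `w`; `E` is its lower bound. -/
structure EForm (w : Conf N → ℝ) (a : FS N →L⋆[ℂ] FS N →L[ℂ] ℂ) (E : ℝ) : Prop extends
    FormData (JF (N := N)) a E where
  en : ∀ Ψ : ElectronState N, (a (toFS Ψ) (toFS Ψ)).re = energy w Ψ

theorem EForm.low' (h : EForm w a E) (Ψ : ElectronState N) : E * normSq Ψ ≤ energy w Ψ := by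
  rw [← h.en, ← norm_JS_sq, ← JF_toFS]
  exact h.low _

theorem EForm.mem_iff (h : EForm w a E) (Ψ : ElectronState N) :
    toFS Ψ ∈ gsp JF a E ↔ energy w Ψ = E * normSq Ψ := by
  rw [mem_gsp_iff h.toFormData, h.en, JF_toFS, norm_JS_sq]

theorem EForm.isGroundState (h : EForm w a E) {Ψ : ElectronState N} (h1 : normSq Ψ = 1)
    (h2 : toFS Ψ ∈ gsp JF a E) : IsGroundState w Ψ := by
  refine ⟨h1, fun Φ hΦ => ?_⟩
  rw [(h.mem_iff Ψ).1 h2, h1, mul_one]
  have := h.low' Φ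
  rwa [hΦ, mul_one] at this

/-- the projected state `P Ψ`. -/
def pj (a : FS N →L⋆[ℂ] FS N →L[ℂ] ℂ) (E : ℝ) (Ψ : ElectronState N) : ElectronState N :=
  ofFS (gpr JF a E (JS Ψ))

theorem JS_pj (Ψ : ElectronState N) : JS (pj a E Ψ) = JF (gpr JF a E (JS Ψ)) := JS_ofFS _

theorem toFS_pj (Ψ : ElectronState N) : toFS (pj a E Ψ) = gpr JF a E (JS Ψ) := toFS_ofFS _

theorem pj_mem (h : EForm w a E) (Ψ : ElectronState N) : toFS (pj a E Ψ) ∈ gsp JF a E := by
  rw [toFS_pj]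
  exact gpr_mem h.toFormData _

/-- the projection commutes with symmetries. -/
theorem gpr_sym (h : EForm w a E) {act inv : ElectronState N → ElectronState N}
    {W : LS N ≃ₗᵢ[ℂ] LS N} (hs : IsSym w act inv W) (x : LS N) :
    gpr JF a E (W x) = toFS (act (ofFS (gpr JF a E x))) := by
  have hn : ∀ (act : ElectronState N → ElectronState N) (W : LS N ≃ₗᵢ[ℂ] LS N) (Ψ : ElectronState N),
      JS (act Ψ) = W (JS Ψ) → normSq (act Ψ) = normSq Ψ := by
    intro act W Ψ h1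
    rw [← norm_JS_sq, h1, W.norm_map, norm_JS_sq]
  refine gpr_comm h.toFormData (fun v => toFS (act (ofFS v))) (fun v => toFS (inv (ofFS v))) W
    (fun v hv => ⟨?_, ?_⟩) (fun v hv => ⟨?_, ?_⟩) x
  · rw [h.mem_iff, hs.eact, hn act W _ (hs.hact _), ← h.mem_iff, toFS_ofFS]
    exact hv
  · rw [JF_toFS, hs.hact, JS_ofFS]
  · rw [h.mem_iff, hs.einv, hn inv W.symm _ (hs.hinv _), ← h.mem_iff, toFS_ofFS]
    exact hv
  · rw [JF_toFS, hs.hinv, JS_ofFS]

theorem JS_gpr_sym (h : EForm w a E) {act inv : ElectronState N → ElectronState N}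
    {W : LS N ≃ₗᵢ[ℂ] LS N} (hs : IsSym w act inv W) (x : LS N) :
    JF (gpr JF a E (W x)) = W (JF (gpr JF a E x)) := by
  rw [gpr_sym h hs, JF_toFS, hs.hact, JS_ofFS]

/-- invariance of the matrix of the projection. -/
theorem pm_sym (h : EForm w a E) {act inv : ElectronState N → ElectronState N}
    {W : LS N ≃ₗᵢ[ℂ] LS N} (hs : IsSym w act inv W) (x y : LS N) :
    pm JF a E (W x) (W y) = pm JF a E x y := by
  unfold pm
  rw [JS_gpr_sym h hs, W.inner_map_map]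

end

end Vale.Agent.P363.H868
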