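import Vale.Agent.P363.R.Sob.S01
import Vale.Agent.P363.H382.Conv
import Vale.Agent.P363.R.Top.Defs

/-! Dilations of electron states (block B9a): ground states and representability under scaling. -/

namespace Vale.Agent.P363.H868

open MeasureTheory Filter Topology
open Vale.Agent.P363.Stmt Vale.Agent.P363.R.Sob Vale.Agent.P363.H382
open scoped ContDiff ENNReal

set_option linter.unusedSectionVars false

noncomputable section

/-! ### integrals and null sets under `x ↦ c • x` -/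

theorem finrank_conf (N : ℕ) : Module.finrank ℝ (Conf N) = 3 * N := by
  rw [Module.finrank_pi_fintype]
  simp [mul_comm]

section
variable {E : Type*} [NormedAddCommGroup E] [NormedSpace ℝ E] [FiniteDimensional ℝ E]
  [MeasurableSpace E] [BorelSpace E] {μ : Measure E} [μ.IsAddHaarMeasure]
variable {F : Type*} [NormedAddCommGroup F] [NormedSpace ℝ F]

theorem int_smul {c : ℝ} (hc : 0 < c) (f : E → F) :
    ∫ x, f (c • x) ∂μ = (c ^ Module.finrank ℝ E)⁻¹ • ∫ x, f x ∂μ :=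
  Measure.integral_comp_smul_of_nonneg μ f c (hR := hc.le)

theorem qmp_smul {c : ℝ} (hc : 0 < c) :
    Measure.QuasiMeasurePreserving (fun x : E => c • x) μ μ := by
  refine ⟨measurable_const_smul c, ?_⟩
  rw [Measure.map_addHaar_smul μ hc.ne']
  exact Measure.smul_absolutelyContinuous

theorem ae_smul {c : ℝ} (hc : 0 < c) {p : E → Prop} (h : ∀ᵐ x ∂μ, p x) :
    ∀ᵐ x ∂μ, p (c • x) :=
  (qmp_smul (μ := μ) hc).ae h

theorem memLp_smul {c : ℝ} (hc : 0 < c) {p : ℝ≥0∞} {f : E → F} (h : MemLp f p μ) :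
    MemLp (fun x => f (c • x)) p μ := by
  refine MemLp.comp_of_map (f := fun x : E => c • x) ?_ (measurable_const_smul c).aemeasurable
  rw [Measure.map_addHaar_smul μ hc.ne']
  exact h.smul_measure ENNReal.ofReal_ne_top

theorem isWD_smul [CompleteSpace F] {c : ℝ} (hc : 0 < c) {v : E} {f g : E → F} (h : IsWD μ v f g) :
    IsWD μ v (fun x => f (c • x)) (fun x => c • g (c • x)) := by
  set A : E ≃L[ℝ] E := ContinuousLinearEquiv.smulLeft (Units.mk0 c hc.ne') with hA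
  have hAx : ∀ x, A x = c • x := fun x => rfl
  have h1 := h.comp_linear A
  have hAs : A.symm v = c⁻¹ • v := by
    rw [ContinuousLinearEquiv.symm_apply_eq, hAx, smul_smul, mul_inv_cancel₀ hc.ne', one_smul]
  rw [hAs] at h1
  simp only [hAx] at h1
  intro φ hφ
  have h2 := h1 φ hφ
  simp only [map_smul, smul_eq_mul, mul_smul, integral_smul] at h2
  have e1 : ∫ x, φ x • c • g (c • x) ∂μ = c • ∫ x, φ x • g (c • x) ∂μ := by
    rw [← integral_smul]
    exact integral_congr_ae (Eventually.of_forall fun x => smul_comm _ _ _)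
  rw [e1, ← smul_neg, ← h2, smul_smul, mul_inv_cancel₀ hc.ne', one_smul]

end

/-! ### dilation of states -/

/-- normalisation constant of the dilation by `c` on `N` electrons. -/
def kap (N : ℕ) (c : ℝ) : ℝ := Real.sqrt (c ^ (3 * N))

theorem kap_sq {N : ℕ} {c : ℝ} (hc : 0 < c) : kap N c ^ 2 = c ^ (3 * N) :=
  Real.sq_sqrt (by positivity)

/-- the dilated state `c^{3N/2} Ψ(c x)`. -/
def dil {N : ℕ} (c : ℝ) (hc : 0 < c) (Ψ : ElectronState N) : ElectronState N where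
  amp s x := (kap N c : ℂ) * Ψ.amp s (c • x)
  grad s i k x := (kap N c : ℂ) * ((c : ℂ) * Ψ.grad s i k (c • x))
  amp_memLp s := by
    rw [L2_iff]
    exact (memLp_smul hc (L2_iff.1 (Ψ.amp_memLp s))).const_mul _
  grad_memLp s i k := by
    rw [L2_iff]
    exact ((memLp_smul hc (L2_iff.1 (Ψ.grad_memLp s i k))).const_mul _).const_mul _
  grad_weak s i k := by
    rw [isWeakDeriv_iff]
    have h := (isWD_smul hc (isWeakDeriv_iff.1 (Ψ.grad_weak s i k))).const_smul (kap N c : ℂ)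
    exact h
  antisymm σ s := by
    rw [AEConf_iff]
    have h := ae_smul (μ := (volume : Measure (Conf N))) hc (AEConf_iff.1 (Ψ.antisymm σ s))
    filter_upwards [h] with x hx
    have : c • x ∘ σ = (c • x) ∘ σ := rfl
    rw [this, hx]
    ring

variable {N : ℕ} {c : ℝ}

theorem int_conf_smul {F : Type*} [NormedAddCommGroup F] [NormedSpace ℝ F] (hc : 0 < c)
    (f : Conf N → F) : ∫ x, f (c • x) = (c ^ (3 * N))⁻¹ • ∫ x, f x := by
  rw [← finrank_conf N]
  exact int_smul hc f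

theorem int_dil (hc : 0 < c) (f : Conf N → ℝ) :
    ∫ x, kap N c ^ 2 * f (c • x) = ∫ x, f x := by
  rw [integral_const_mul, int_conf_smul hc f, kap_sq hc, smul_eq_mul, ← mul_assoc,
    mul_inv_cancel₀ (by positivity), one_mul]

theorem normSq_dil (hc : 0 < c) (Ψ : ElectronState N) : normSq (dil c hc Ψ) = normSq Ψ := by
  unfold normSq
  refine Finset.sum_congr rfl fun s _ => ?_
  rw [intR_eq, intR_eq, ← int_dil hc (fun x => ‖Ψ.amp s x‖ ^ 2)]
  refine integral_congr_ae (Eventually.of_forall fun x => ?_)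
  simp [dil, mul_pow]

theorem energy_dil (hc : 0 < c) (w : Conf N → ℝ) (Ψ : ElectronState N) :
    energy w (dil c hc Ψ) = c ^ 2 * energy (fun x => (c ^ 2)⁻¹ * w (c⁻¹ • x)) Ψ := by
  unfold energy
  have h1 : ∀ s i k, intR (fun x => ‖(dil c hc Ψ).grad s i k x‖ ^ 2)
      = c ^ 2 * intR (fun x => ‖Ψ.grad s i k x‖ ^ 2) := by
    intro s i k
    rw [intR_eq, intR_eq, ← integral_const_mul,
      ← int_dil hc (fun x => c ^ 2 * ‖Ψ.grad s i k x‖ ^ 2)]
    refine integral_congr_ae (Eventually.of_forall fun x => ?_)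
    simp [dil, mul_pow]
  have h2 : ∀ s, intR (fun x => w x * ‖(dil c hc Ψ).amp s x‖ ^ 2)
      = c ^ 2 * intR (fun x => (c ^ 2)⁻¹ * w (c⁻¹ • x) * ‖Ψ.amp s x‖ ^ 2) := by
    intro s
    rw [intR_eq, intR_eq, ← integral_const_mul,
      ← int_dil hc (fun x => c ^ 2 * ((c ^ 2)⁻¹ * w (c⁻¹ • x) * ‖Ψ.amp s x‖ ^ 2))]
    refine integral_congr_ae (Eventually.of_forall fun x => ?_)
    simp only [dil, norm_mul, mul_pow, smul_smul, inv_mul_cancel₀ hc.ne', one_smul]
    have : c ^ 2 ≠ 0 := by positivity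
    rw [Complex.norm_real, Real.norm_eq_abs, sq_abs]
    field_simp
  simp only [h1, h2]
  simp only [← Finset.mul_sum]
  ring

theorem density_dil {n : ℕ} (hc : 0 < c) (Ψ : ElectronState (n + 1)) (r : R3) :
    density (dil c hc Ψ) r = c ^ 3 * density Ψ (c • r) := by
  unfold density
  have h1 : ∀ s, intR (fun y : Conf n => ‖(dil c hc Ψ).amp s (Fin.cons r y)‖ ^ 2)
      = c ^ 3 * intR (fun y : Conf n => ‖Ψ.amp s (Fin.cons (c • r) y)‖ ^ 2) := by
    intro s
    rw [intR_eq, intR_eq, ← integral_const_mul,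
      ← int_dil hc (fun y => c ^ 3 * ‖Ψ.amp s (Fin.cons (c • r) y)‖ ^ 2)]
    refine integral_congr_ae (Eventually.of_forall fun y => ?_)
    have e : c • (Fin.cons r y : Conf (n + 1)) = Fin.cons (c • r) (c • y) := by
      funext i
      refine Fin.cases ?_ (fun j => ?_) i <;> simp
    simp only [dil, norm_mul, mul_pow, e]
    rw [Complex.norm_real, Real.norm_eq_abs, sq_abs, kap_sq hc, kap_sq hc]
    ring
  simp only [h1]
  rw [← Finset.mul_sum]
  ring

theorem isGroundState_dil (hc : 0 < c) {w w' : Conf N → ℝ} (hw : ∀ x, w' (c • x) = (c ^ 2)⁻¹ * w x)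
    {Ψ : ElectronState N} (h : IsGroundState w' Ψ) : IsGroundState w (dil c hc Ψ) := by
  have hw1 : (fun x => (c ^ 2)⁻¹ * w (c⁻¹ • x)) = w' := by
    funext x
    rw [← hw, smul_smul, mul_inv_cancel₀ hc.ne', one_smul]
  have hc' : 0 < c⁻¹ := by positivity
  refine ⟨by rw [normSq_dil, h.1], fun Φ hΦ => ?_⟩
  rw [energy_dil, hw1]
  have h1 := h.2 (dil c⁻¹ hc' Φ) (by rw [normSq_dil, hΦ])
  rw [energy_dil] at h1
  have hw2 : (fun x => ((c⁻¹) ^ 2)⁻¹ * w' ((c⁻¹)⁻¹ • x)) = w := by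
    funext x
    rw [inv_inv, hw]
    have : c ^ 2 ≠ 0 := by positivity
    field_simp
  rw [hw2] at h1
  have h2 : c ^ 2 * energy w' Ψ ≤ c ^ 2 * ((c⁻¹) ^ 2 * energy w Φ) :=
    mul_le_mul_of_nonneg_left h1 (by positivity)
  refine h2.trans (le_of_eq ?_)
  have : c ≠ 0 := hc.ne'
  field_simp

/-! ### B9a -/

theorem rep_smul (hc : 0 < c) (x : Conf N) : R.Top.rep (c • x) = c⁻¹ * R.Top.rep x := by
  unfold R.Top.rep
  rw [Finset.mul_sum]
  refine Finset.sum_congr rfl fun i _ => ?_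
  rw [Finset.mul_sum]
  refine Finset.sum_congr rfl fun k _ => ?_
  have : (c • x) i - (c • x) k = c • (x i - x k) := by simp [smul_sub]
  rw [this, norm_smul, Real.norm_eq_abs, abs_of_pos hc, one_div, one_div, mul_inv]

/-- B9a: scaling, ground states. -/
theorem scale_ground' (Z : ℕ) (hZ : 1 ≤ Z) (Ψ : ElectronState 5)
    (h : IsGroundState (R.Top.pot (1 / (Z : ℝ))) Ψ) :
    ∃ Ψ' : ElectronState 5, IsGroundState (coulombPotential (fun _ : Fin 1 => Z) (fun _ => 0)) Ψ' ∧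
      ∀ᵐ x, density Ψ' x = (Z : ℝ) ^ 3 * density Ψ ((Z : ℝ) • x) := by
  have hZ0 : (0 : ℝ) < Z := by exact_mod_cast hZ
  refine ⟨dil Z hZ0 Ψ, isGroundState_dil hZ0 (fun x => ?_) h,
    Eventually.of_forall fun x => density_dil hZ0 Ψ x⟩
  have e1 : coulombPotential (N := 5) (fun _ : Fin 1 => Z) (fun _ => 0) x
      = (∑ i, -((Z : ℝ) / ‖x i‖)) + R.Top.rep x := by
    simp [coulombPotential, R.Top.rep]
  rw [e1]
  unfold R.Top.pot
  rw [rep_smul hZ0]
  have e2 : ∀ i, -(1 / ‖((Z : ℝ) • x) i‖) = ((Z : ℝ) ^ 2)⁻¹ * -((Z : ℝ) / ‖x i‖) := by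
    intro i
    rw [Pi.smul_apply, norm_smul, Real.norm_eq_abs, abs_of_pos hZ0]
    by_cases hx : ‖x i‖ = 0
    · simp [hx]
    · field_simp
  simp only [e2]
  rw [← Finset.mul_sum, mul_add]
  field_simp

theorem LpR3_iff {p : ℝ≥0∞} {f : R3 → ℝ} : LpR3 p f ↔ MemLp f p volume := Iff.rfl

/-- B9a: scaling, representability. -/
theorem scale_repr' (c : ℝ) (hc : 0 < c) (ρ ρ' : R3 → ℝ) (h : ∀ᵐ x, ρ' x = c ^ 3 * ρ (c • x))
    (hr : NonintEnsembleRepresentable 4 ρ') : NonintEnsembleRepresentable 4 ρ := by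
  obtain ⟨v, ⟨a, b, ha, hb, hv⟩, p, Φ, hp, hs, hg, hd⟩ := hr
  have hc' : 0 < c⁻¹ := by positivity
  refine ⟨fun x => (c ^ 2)⁻¹ * v (c⁻¹ • x), ⟨fun x => (c ^ 2)⁻¹ * a (c⁻¹ • x),
    fun x => (c ^ 2)⁻¹ * b (c⁻¹ • x), ?_, ?_, ?_⟩, p, fun k => dil c⁻¹ hc' (Φ k), hp, hs,
    fun k => ?_, ?_⟩
  · rw [LpR3_iff] at ha ⊢
    exact (memLp_smul hc' ha).const_mul _
  · rw [LpR3_iff] at hb ⊢
    exact (memLp_smul hc' hb).const_mul _
  · funext x
    simp [hv, mul_add]
  · refine isGroundState_dil hc' (fun x => ?_) (hg k)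
    unfold sumPotential
    rw [Finset.mul_sum]
    refine Finset.sum_congr rfl fun i _ => ?_
    have hc0 : c ≠ 0 := hc.ne'
    simp only [Pi.smul_apply]
    field_simp
  · rw [AE3_iff] at hd ⊢
    have h1 := ae_smul (μ := (volume : Measure R3)) hc' hd
    have h2 := ae_smul (μ := (volume : Measure R3)) hc' h
    filter_upwards [h1, h2] with x hx hx2
    rw [smul_smul, mul_inv_cancel₀ hc.ne', one_smul] at hx2
    rw [hx2] at hx
    have h3 := hx.mul_left ((c ^ 3)⁻¹)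
    have hc0 : c ≠ 0 := hc.ne'
    have h4 : (c ^ 3)⁻¹ * (c ^ 3 * ρ x) = ρ x := by field_simp
    rw [h4] at h3
    refine h3.congr_fun ?_ |> fun h => h
    intro k
    rw [density_dil]
    field_simp

end

end Vale.Agent.P363.H868
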