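import Vale.Agent.P363.H868.TenAct

/-! Tensor identities: action of rotations, spin flip and spin phases on the ground tensors
`C5 e s` and `C4`. -/

namespace Vale.Agent.P363.H868

open Vale.Agent.P363.Stmt
open Vale.Agent.P363.H979.CI (Ten SO asym ind tup5 tup4 C5 C4 eta5 eta4 t5 t4)
open scoped ComplexConjugate

set_option linter.unusedSectionVars false

noncomputable section

variable {N : ℕ}

/-! ### general facts on `asym` -/

theorem asym_add (b b' : Ten N) : asym (fun J => b J + b' J) = fun J => asym b J + asym b' J := by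
  funext J
  simp only [asym, mul_add, Finset.sum_add_distrib]

theorem asym_mul (z : ℂ) (b : Ten N) : asym (fun J => z * b J) = fun J => z * asym b J := by
  funext J
  simp only [asym, Finset.mul_sum]
  exact Finset.sum_congr rfl fun σ _ => by ring

theorem asym_sum {ι : Type*} (t : Finset ι) (b : ι → Ten N) :
    asym (fun J => ∑ k ∈ t, b k J) = fun J => ∑ k ∈ t, asym (b k) J := by
  funext J
  simp only [asym, Finset.mul_sum]
  rw [Finset.sum_comm]

theorem rotT_asym (M : Fin 5 → Fin 5 → ℝ) (b : Ten N) : rotT M (asym b) = asym (rotT M b) := by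
  funext J
  simp only [rotT, asym, Finset.mul_sum]
  rw [Finset.sum_comm]
  refine Finset.sum_congr rfl fun σ _ => ?_
  rw [← Equiv.sum_comp (Equiv.arrowCongr σ (Equiv.refl (Fin 5)))]
  refine Finset.sum_congr rfl fun a _ => ?_
  have h1 : ∏ i, M ((Equiv.arrowCongr σ (Equiv.refl (Fin 5))) a i) (J i).1
      = ∏ i, M (a i) ((J ∘ σ) i).1 := by
    rw [← Equiv.prod_comp σ]
    refine Finset.prod_congr rfl fun i _ => ?_
    simp [Equiv.arrowCongr]
  have h2 : ((fun i => ((Equiv.arrowCongr σ (Equiv.refl (Fin 5))) a i, (J i).2)) ∘ σ : Fin N → SO)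
      = fun i => (a i, ((J ∘ σ) i).2) := by
    funext i
    simp [Equiv.arrowCongr]
  rw [h1, h2]
  ring

theorem flipT_asym (τ : Equiv.Perm (Fin 2)) (b : Ten N) : flipT τ (asym b) = asym (flipT τ b) := rfl

theorem phT_asym (ζ : Fin 2 → ℂ) (b : Ten N) : phT ζ (asym b) = asym (phT ζ b) := by
  funext J
  simp only [phT, asym, Finset.mul_sum]
  refine Finset.sum_congr rfl fun σ _ => ?_
  have h1 : ∏ i, ζ ((J ∘ σ) i).2 = ∏ i, ζ (J i).2 := Equiv.prod_comp σ fun i => ζ (J i).2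
  rw [h1]
  ring

/-- `asym` of a permuted tensor. -/
theorem asym_perm (ρ : Equiv.Perm (Fin N)) (b : Ten N) :
    asym (fun J => b (J ∘ ρ)) = fun J => ((Equiv.Perm.sign ρ : ℤ) : ℂ) * asym b J := by
  funext J
  simp only [asym, Finset.mul_sum]
  rw [← Equiv.sum_comp (Equiv.mulRight ρ) (fun σ : Equiv.Perm (Fin N) =>
    ((Equiv.Perm.sign ρ : ℤ) : ℂ) * (((Equiv.Perm.sign σ : ℤ) : ℂ) * b (J ∘ σ)))]
  refine Finset.sum_congr rfl fun σ _ => ?_
  have h1 : (J ∘ σ) ∘ ρ = J ∘ (Equiv.mulRight ρ σ) := rfl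
  have h2 : ((Equiv.Perm.sign ρ : ℤ) : ℂ) * ((Equiv.Perm.sign (Equiv.mulRight ρ σ) : ℤ) : ℂ)
      = ((Equiv.Perm.sign σ : ℤ) : ℂ) := by
    rw [Equiv.coe_mulRight, Equiv.Perm.sign_mul, Units.val_mul, Int.cast_mul, mul_comm,
      mul_assoc, ← Int.cast_mul, ← Units.val_mul, Int.units_mul_self]
    simp
  rw [h1, ← mul_assoc, h2]

/-! ### product tensors -/

/-- indicator of one spin-orbital. -/
def dl (p q : SO) : ℂ := if q = p then 1 else 0

/-- product tensor. -/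
def prodT (v : Fin N → SO → ℂ) : Ten N := fun J => ∏ i, v i (J i)

theorem ind_eq_prodT (I : Fin N → SO) : ind I = prodT fun i => dl (I i) := by
  funext J
  simp only [ind, prodT, dl, Finset.prod_ite_zero]
  by_cases h : J = I
  · subst h; simp
  · rw [if_neg h, if_neg]
    intro h'
    exact h (funext fun i => h' i (Finset.mem_univ _))

/-- action of a matrix on one spin-orbital vector. -/
def rv (M : Fin 5 → Fin 5 → ℝ) (v : SO → ℂ) : SO → ℂ := fun q => ∑ a, (M a q.1 : ℂ) * v (a, q.2)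

theorem rotT_prodT (M : Fin 5 → Fin 5 → ℝ) (v : Fin N → SO → ℂ) :
    rotT M (prodT v) = prodT fun i => rv M (v i) := by
  funext J
  simp only [rotT, prodT, rv]
  rw [Finset.prod_univ_sum, Fintype.piFinset_univ]
  refine Finset.sum_congr rfl fun a _ => ?_
  rw [Finset.prod_mul_distrib]
  push_cast
  rfl

/-- the labels of the `2p` orbitals. -/
def pl : Fin 3 → Fin 5 := ![2, 3, 4]

theorem rv_s (A : R3 ≃ₗᵢ[ℝ] R3) (a : Fin 5) (ha : a = 0 ∨ a = 1) (s : Fin 2) :
    rv (Mrot A) (dl (a, s)) = dl (a, s) := by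
  funext q
  obtain ⟨b, t⟩ := q
  rcases ha with rfl | rfl <;> fin_cases b <;> fin_cases s <;> fin_cases t <;>
    simp [rv, dl, Mrot]

theorem rv_p (A : R3 ≃ₗᵢ[ℝ] R3) (j : Fin 3) (s : Fin 2) :
    rv (Mrot A) (dl (pl j, s)) = fun q => ∑ k, (mat A j k : ℂ) * dl (pl k, s) q := by
  funext q
  obtain ⟨b, t⟩ := q
  fin_cases j <;> fin_cases b <;> fin_cases s <;> fin_cases t <;>
    simp [rv, dl, Mrot, pl, Fin.sum_univ_succ]

/-! ### the two Slater type families -/

/-- `asym (1s up, 1s down, u, v, w)` -/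
def S5 (u v w : SO → ℂ) : Ten 5 := asym (prodT ![dl (0, 0), dl (0, 1), u, v, w])

/-- `asym (1s up, 1s down, u, v)` -/
def S4 (u v : SO → ℂ) : Ten 4 := asym (prodT ![dl (0, 0), dl (0, 1), u, v])

theorem S5_apply (u v w : SO → ℂ) (J : Fin 5 → SO) : S5 u v w J =
    ∑ σ : Equiv.Perm (Fin 5), ((Equiv.Perm.sign σ : ℤ) : ℂ) *
      (dl (0, 0) (J (σ 0)) * dl (0, 1) (J (σ 1)) * u (J (σ 2)) * v (J (σ 3)) * w (J (σ 4))) := by
  unfold S5 asym prodT
  refine Finset.sum_congr rfl fun σ _ => ?_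
  rw [Fin.prod_univ_five]
  rfl

theorem S4_apply (u v : SO → ℂ) (J : Fin 4 → SO) : S4 u v J =
    ∑ σ : Equiv.Perm (Fin 4), ((Equiv.Perm.sign σ : ℤ) : ℂ) *
      (dl (0, 0) (J (σ 0)) * dl (0, 1) (J (σ 1)) * u (J (σ 2)) * v (J (σ 3))) := by
  unfold S4 asym prodT
  refine Finset.sum_congr rfl fun σ _ => ?_
  rw [Fin.prod_univ_four]
  rfl

theorem S5_sum1 {ι : Type*} [Fintype ι] (c : ι → ℂ) (u : ι → SO → ℂ) (v w : SO → ℂ) :
    S5 (fun q => ∑ k, c k * u k q) v w = ∑ k, c k • S5 (u k) v w := by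
  funext J
  rw [Finset.sum_apply]
  simp only [Pi.smul_apply, smul_eq_mul, S5_apply, Finset.mul_sum, Finset.sum_mul]
  rw [Finset.sum_comm]
  exact Finset.sum_congr rfl fun k _ => Finset.sum_congr rfl fun σ _ => by ring

theorem S5_sum2 {ι : Type*} [Fintype ι] (c : ι → ℂ) (u : SO → ℂ) (v : ι → SO → ℂ) (w : SO → ℂ) :
    S5 u (fun q => ∑ k, c k * v k q) w = ∑ k, c k • S5 u (v k) w := by
  funext J
  rw [Finset.sum_apply]
  simp only [Pi.smul_apply, smul_eq_mul, S5_apply, Finset.mul_sum, Finset.sum_mul]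
  rw [Finset.sum_comm]
  exact Finset.sum_congr rfl fun k _ => Finset.sum_congr rfl fun σ _ => by ring

theorem S5_sum3 {ι : Type*} [Fintype ι] (c : ι → ℂ) (u v : SO → ℂ) (w : ι → SO → ℂ) :
    S5 u v (fun q => ∑ k, c k * w k q) = ∑ k, c k • S5 u v (w k) := by
  funext J
  rw [Finset.sum_apply]
  simp only [Pi.smul_apply, smul_eq_mul, S5_apply, Finset.mul_sum]
  rw [Finset.sum_comm]
  exact Finset.sum_congr rfl fun k _ => Finset.sum_congr rfl fun σ _ => by ring

theorem S4_sum1 {ι : Type*} [Fintype ι] (c : ι → ℂ) (u : ι → SO → ℂ) (v : SO → ℂ) :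
    S4 (fun q => ∑ k, c k * u k q) v = ∑ k, c k • S4 (u k) v := by
  funext J
  rw [Finset.sum_apply]
  simp only [Pi.smul_apply, smul_eq_mul, S4_apply, Finset.mul_sum, Finset.sum_mul]
  rw [Finset.sum_comm]
  exact Finset.sum_congr rfl fun k _ => Finset.sum_congr rfl fun σ _ => by ring

theorem S4_sum2 {ι : Type*} [Fintype ι] (c : ι → ℂ) (u : SO → ℂ) (v : ι → SO → ℂ) :
    S4 u (fun q => ∑ k, c k * v k q) = ∑ k, c k • S4 u (v k) := by
  funext J
  rw [Finset.sum_apply]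
  simp only [Pi.smul_apply, smul_eq_mul, S4_apply, Finset.mul_sum]
  rw [Finset.sum_comm]
  exact Finset.sum_congr rfl fun k _ => Finset.sum_congr rfl fun σ _ => by ring

theorem S5_det (u v w : SO → ℂ) (J : Fin 5 → SO) : S5 u v w J =
    Matrix.det (Matrix.of fun k i : Fin 5 => ![dl (0, 0), dl (0, 1), u, v, w] i (J k)) := by
  rw [Matrix.det_apply']
  rfl

theorem S5_same13 (u v : SO → ℂ) : S5 u v u = 0 := by
  funext J
  rw [S5_det]
  exact Matrix.det_zero_of_column_eq (i := 2) (j := 4) (by decide) (fun k => rfl)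

theorem S5_same23 (u v : SO → ℂ) : S5 u v v = 0 := by
  funext J
  rw [S5_det]
  exact Matrix.det_zero_of_column_eq (i := 3) (j := 4) (by decide) (fun k => rfl)

theorem rotT_S5 (A : R3 ≃ₗᵢ[ℝ] R3) (u v w : SO → ℂ) :
    rotT (Mrot A) (S5 u v w) = S5 (rv (Mrot A) u) (rv (Mrot A) v) (rv (Mrot A) w) := by
  unfold S5
  rw [rotT_asym, rotT_prodT]
  congr 2
  funext i
  fin_cases i
  · exact rv_s A 0 (Or.inl rfl) 0
  · exact rv_s A 0 (Or.inl rfl) 1
  · rfl
  · rfl
  · rfl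

theorem rotT_S4 (A : R3 ≃ₗᵢ[ℝ] R3) (u v : SO → ℂ) :
    rotT (Mrot A) (S4 u v) = S4 (rv (Mrot A) u) (rv (Mrot A) v) := by
  unfold S4
  rw [rotT_asym, rotT_prodT]
  congr 2
  funext i
  fin_cases i
  · exact rv_s A 0 (Or.inl rfl) 0
  · exact rv_s A 0 (Or.inl rfl) 1
  · rfl
  · rfl

/-- the pair `∑ 2p_k up 2p_k down` is invariant. -/
theorem pair_S5 (A : R3 ≃ₗᵢ[ℝ] R3) (w : SO → ℂ) :
    ∑ k, S5 (rv (Mrot A) (dl (pl k, 0))) (rv (Mrot A) (dl (pl k, 1))) w
      = ∑ k, S5 (dl (pl k, 0)) (dl (pl k, 1)) w := by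
  simp only [rv_p, S5_sum1, S5_sum2, Finset.smul_sum, smul_smul]
  rw [Finset.sum_comm]
  refine Finset.sum_congr rfl fun l _ => ?_
  rw [Finset.sum_comm]
  rw [Finset.sum_eq_single l]
  · rw [← Finset.sum_smul]
    have h := mat_col A l l
    rw [if_pos rfl, ← Complex.ofReal_inj] at h
    push_cast at h
    rw [h, one_smul]
  · intro m _ hm
    rw [← Finset.sum_smul]
    have h := mat_col A l m
    rw [if_neg (Ne.symm hm), ← Complex.ofReal_inj] at h
    push_cast at h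
    rw [h, zero_smul]
  · intro h; exact absurd (Finset.mem_univ _) h

theorem pair_S4 (A : R3 ≃ₗᵢ[ℝ] R3) :
    ∑ k, S4 (rv (Mrot A) (dl (pl k, 0))) (rv (Mrot A) (dl (pl k, 1)))
      = ∑ k, S4 (dl (pl k, 0)) (dl (pl k, 1)) := by
  simp only [rv_p, S4_sum1, S4_sum2, Finset.smul_sum, smul_smul]
  rw [Finset.sum_comm]
  refine Finset.sum_congr rfl fun l _ => ?_
  rw [Finset.sum_comm]
  rw [Finset.sum_eq_single l]
  · rw [← Finset.sum_smul]
    have h := mat_col A l l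
    rw [if_pos rfl, ← Complex.ofReal_inj] at h
    push_cast at h
    rw [h, one_smul]
  · intro m _ hm
    rw [← Finset.sum_smul]
    have h := mat_col A l m
    rw [if_neg (Ne.symm hm), ← Complex.ofReal_inj] at h
    push_cast at h
    rw [h, zero_smul]
  · intro h; exact absurd (Finset.mem_univ _) h

/-! ### the ground tensors -/

theorem asym_tup5 (a e : Fin 5) (s : Fin 2) :
    asym (ind (tup5 a e s)) = S5 (dl (a, 0)) (dl (a, 1)) (dl (e, s)) := by
  rw [ind_eq_prodT]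
  unfold S5
  congr 2
  funext i
  fin_cases i <;> rfl

theorem asym_tup4 (a : Fin 5) : asym (ind (tup4 a)) = S4 (dl (a, 0)) (dl (a, 1)) := by
  rw [ind_eq_prodT]
  unfold S4
  congr 2
  funext i
  fin_cases i <;> rfl

theorem sum_p {M : Type*} [AddCommMonoid M] (f : Fin 5 → M) :
    ∑ a : Fin 5, (if 2 ≤ a then f a else 0) = ∑ k : Fin 3, f (pl k) := by
  rw [Fin.sum_univ_five, Fin.sum_univ_three]
  have h0 : ¬ (2 : Fin 5) ≤ 0 := by decide
  have h1 : ¬ (2 : Fin 5) ≤ 1 := by decide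
  have h3 : (2 : Fin 5) ≤ 3 := by decide
  have h4 : (2 : Fin 5) ≤ 4 := by decide
  rw [if_neg h0, if_neg h1, if_pos le_rfl, if_pos h3, if_pos h4, zero_add, zero_add]
  rfl

theorem S5_vanish (e : Fin 5) (s : Fin 2) : S5 (dl (e, 0)) (dl (e, 1)) (dl (e, s)) = 0 := by
  fin_cases s
  · exact S5_same13 _ _
  · exact S5_same23 _ _

theorem C5_eq (e : Fin 5) (s : Fin 2) : C5 e s = (eta5 : ℂ) •
    (S5 (dl (1, 0)) (dl (1, 1)) (dl (e, s)) +
      (t5 : ℂ) • ∑ k, S5 (dl (pl k, 0)) (dl (pl k, 1)) (dl (e, s))) := by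
  unfold C5
  rw [asym_mul]
  rw [asym_add]
  funext J
  rw [asym_mul, asym_sum]
  simp only [Pi.smul_apply, Pi.add_apply, smul_eq_mul, Finset.sum_apply]
  congr 2
  · exact congrFun (asym_tup5 1 e s) J
  · congr 1
    have h1 : ∀ a : Fin 5, asym (fun J => if 2 ≤ a ∧ a ≠ e then ind (tup5 a e s) J else 0) J
        = if 2 ≤ a then S5 (dl (a, 0)) (dl (a, 1)) (dl (e, s)) J else 0 := by
      intro a
      by_cases h2 : 2 ≤ a
      · by_cases h3 : a = e
        · subst h3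
          have h4 : (fun J : Fin 5 → SO => if 2 ≤ a ∧ a ≠ a then ind (tup5 a a s) J else 0)
              = fun _ => 0 := by
            funext J
            simp
          rw [h4, S5_vanish]
          simp [asym]
        · have h4 : (fun J : Fin 5 → SO => if 2 ≤ a ∧ a ≠ e then ind (tup5 a e s) J else 0)
              = ind (tup5 a e s) := by
            funext J
            simp [h2, h3]
          rw [h4, asym_tup5, if_pos h2]
      · have h4 : (fun J : Fin 5 → SO => if 2 ≤ a ∧ a ≠ e then ind (tup5 a e s) J else 0)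
              = fun _ => 0 := by
            funext J
            simp [h2]
        rw [h4, if_neg h2]
        simp [asym]
    simp only [h1]
    exact sum_p fun a => S5 (dl (a, 0)) (dl (a, 1)) (dl (e, s)) J

theorem C4_eq : C4 = (eta4 : ℂ) • (S4 (dl (1, 0)) (dl (1, 1)) +
      (t4 : ℂ) • ∑ k, S4 (dl (pl k, 0)) (dl (pl k, 1))) := by
  unfold C4
  rw [asym_mul]
  rw [asym_add]
  funext J
  rw [asym_mul, asym_sum]
  simp only [Pi.smul_apply, Pi.add_apply, smul_eq_mul, Finset.sum_apply]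
  congr 2
  · exact congrFun (asym_tup4 1) J
  · congr 1
    have h1 : ∀ a : Fin 5, asym (fun J => if 2 ≤ a then ind (tup4 a) J else 0) J
        = if 2 ≤ a then S4 (dl (a, 0)) (dl (a, 1)) J else 0 := by
      intro a
      by_cases h2 : 2 ≤ a
      · have h4 : (fun J : Fin 4 → SO => if 2 ≤ a then ind (tup4 a) J else 0)
              = ind (tup4 a) := by
          funext J
          simp [h2]
        rw [h4, asym_tup4, if_pos h2]
      · have h4 : (fun J : Fin 4 → SO => if 2 ≤ a then ind (tup4 a) J else 0)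
              = fun _ => 0 := by
            funext J
            simp [h2]
        rw [h4, if_neg h2]
        simp [asym]
    simp only [h1]
    exact sum_p fun a => S4 (dl (a, 0)) (dl (a, 1)) J

theorem rotT_add (M : Fin 5 → Fin 5 → ℝ) (c d : Ten N) : rotT M (c + d) = rotT M c + rotT M d := by
  funext J
  simp only [rotT, Pi.add_apply, mul_add, Finset.sum_add_distrib]

theorem rotT_smul (M : Fin 5 → Fin 5 → ℝ) (z : ℂ) (c : Ten N) : rotT M (z • c) = z • rotT M c := by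
  funext J
  simp only [rotT, Pi.smul_apply, smul_eq_mul, Finset.mul_sum]
  exact Finset.sum_congr rfl fun a _ => by ring

theorem rotT_sum (M : Fin 5 → Fin 5 → ℝ) {ι : Type*} (t : Finset ι) (c : ι → Ten N) :
    rotT M (∑ k ∈ t, c k) = ∑ k ∈ t, rotT M (c k) := by
  funext J
  simp only [rotT, Finset.sum_apply, Finset.mul_sum]
  rw [Finset.sum_comm]

/-- **rotation of `C4`.** -/
theorem rotT_C4 (A : R3 ≃ₗᵢ[ℝ] R3) : rotT (Mrot A) C4 = C4 := by
  rw [C4_eq, rotT_smul, rotT_add, rotT_smul, rotT_sum, rotT_S4]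
  simp only [rotT_S4]
  rw [pair_S4, rv_s A 1 (Or.inr rfl), rv_s A 1 (Or.inr rfl)]

/-- spin flip of an indicator. -/
theorem flipT_ind (I : Fin N → SO) :
    flipT (Equiv.swap 0 1) (ind I) = ind fun i => ((I i).1, Equiv.swap 0 1 (I i).2) := by
  funext J
  simp only [flipT, ind]
  congr 1
  rw [eq_iff_iff]
  constructor
  · intro h
    funext i
    have := congrFun h i
    rw [← this]
    simp
  · intro h
    subst h
    funext i
    simp

theorem phT_ind (ζ : Fin 2 → ℂ) (I : Fin N → SO) :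
    phT ζ (ind I) = fun J => (∏ i, ζ (I i).2) * ind I J := by
  funext J
  simp only [phT, ind]
  by_cases h : J = I
  · subst h; rfl
  · simp [h]

/-- the permutation `(0 1)(2 3)` of five electrons. -/
def rho5 : Equiv.Perm (Fin 5) := Equiv.swap 0 1 * Equiv.swap 2 3

/-- the permutation `(0 1)(2 3)` of four electrons. -/
def rho4 : Equiv.Perm (Fin 4) := Equiv.swap 0 1 * Equiv.swap 2 3

theorem sign_rho5 : Equiv.Perm.sign rho5 = 1 := by decide

theorem sign_rho4 : Equiv.Perm.sign rho4 = 1 := by decide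

theorem rho5_inv (i : Fin 5) : rho5 (rho5 i) = i := by revert i; decide

theorem rho4_inv (i : Fin 4) : rho4 (rho4 i) = i := by revert i; decide

theorem flip_tup5 (a e : Fin 5) (s : Fin 2) : asym (flipT (Equiv.swap 0 1) (ind (tup5 a e s)))
    = asym (ind (tup5 a e (Equiv.swap 0 1 s))) := by
  have h1 : flipT (Equiv.swap 0 1) (ind (tup5 a e s))
      = fun J => ind (tup5 a e (Equiv.swap 0 1 s)) (J ∘ rho5) := by
    rw [flipT_ind]
    funext J
    simp only [ind]
    congr 1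
    rw [eq_iff_iff]
    have h2 : (fun i => ((tup5 a e s i).1, Equiv.swap (0 : Fin 2) 1 (tup5 a e s i).2))
        = tup5 a e (Equiv.swap 0 1 s) ∘ rho5 := by
      funext i
      fin_cases i <;> rfl
    rw [h2]
    constructor
    · intro h
      subst h
      funext i
      simp [rho5_inv]
    · intro h
      rw [← h]
      funext i
      simp [rho5_inv]
  rw [h1, asym_perm, sign_rho5]
  simp

theorem flip_tup4 (a : Fin 5) : asym (flipT (Equiv.swap 0 1) (ind (tup4 a)))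
    = asym (ind (tup4 a)) := by
  have h1 : flipT (Equiv.swap 0 1) (ind (tup4 a)) = fun J => ind (tup4 a) (J ∘ rho4) := by
    rw [flipT_ind]
    funext J
    simp only [ind]
    congr 1
    rw [eq_iff_iff]
    have h2 : (fun i => ((tup4 a i).1, Equiv.swap (0 : Fin 2) 1 (tup4 a i).2))
        = tup4 a ∘ rho4 := by
      funext i
      fin_cases i <;> rfl
    rw [h2]
    constructor
    · intro h
      subst h
      funext i
      simp [rho4_inv]
    · intro h
      rw [← h]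
      funext i
      simp [rho4_inv]
  rw [h1, asym_perm, sign_rho4]
  simp

theorem flipT_S5 (a e : Fin 5) (s : Fin 2) :
    flipT (Equiv.swap 0 1) (S5 (dl (a, 0)) (dl (a, 1)) (dl (e, s)))
      = S5 (dl (a, 0)) (dl (a, 1)) (dl (e, Equiv.swap 0 1 s)) := by
  rw [← asym_tup5, ← asym_tup5, flipT_asym, flip_tup5]

theorem flipT_S4 (a : Fin 5) :
    flipT (Equiv.swap 0 1) (S4 (dl (a, 0)) (dl (a, 1))) = S4 (dl (a, 0)) (dl (a, 1)) := by
  rw [← asym_tup4, flipT_asym, flip_tup4]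

theorem prod_tup5 (ζ : Fin 2 → ℂ) (a e : Fin 5) (s : Fin 2) :
    ∏ i, ζ (tup5 a e s i).2 = ζ 0 ^ 2 * ζ 1 ^ 2 * ζ s := by
  rw [Fin.prod_univ_five]
  change ζ 0 * ζ 1 * ζ 0 * ζ 1 * ζ s = _
  ring

theorem prod_tup4 (ζ : Fin 2 → ℂ) (a : Fin 5) :
    ∏ i, ζ (tup4 a i).2 = ζ 0 ^ 2 * ζ 1 ^ 2 := by
  rw [Fin.prod_univ_four]
  change ζ 0 * ζ 1 * ζ 0 * ζ 1 = _
  ring

theorem phT_S5 (ζ : Fin 2 → ℂ) (a e : Fin 5) (s : Fin 2) :
    phT ζ (S5 (dl (a, 0)) (dl (a, 1)) (dl (e, s)))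
      = (ζ 0 ^ 2 * ζ 1 ^ 2 * ζ s) • S5 (dl (a, 0)) (dl (a, 1)) (dl (e, s)) := by
  rw [← asym_tup5, phT_asym, phT_ind, asym_mul, prod_tup5]
  rfl

theorem phT_S4 (ζ : Fin 2 → ℂ) (a : Fin 5) :
    phT ζ (S4 (dl (a, 0)) (dl (a, 1))) = (ζ 0 ^ 2 * ζ 1 ^ 2) • S4 (dl (a, 0)) (dl (a, 1)) := by
  rw [← asym_tup4, phT_asym, phT_ind, asym_mul, prod_tup4]
  rfl

theorem flipT_lin {ι : Type*} (τ : Equiv.Perm (Fin 2)) (z z' : ℂ) (c : Ten N) (t : Finset ι)
    (d : ι → Ten N) : flipT τ (z • (c + z' • ∑ k ∈ t, d k))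
      = z • (flipT τ c + z' • ∑ k ∈ t, flipT τ (d k)) := by
  funext J
  simp only [flipT, Pi.smul_apply, Pi.add_apply, Finset.sum_apply]

theorem phT_lin {ι : Type*} (ζ : Fin 2 → ℂ) (z z' : ℂ) (c : Ten N) (t : Finset ι)
    (d : ι → Ten N) : phT ζ (z • (c + z' • ∑ k ∈ t, d k))
      = z • (phT ζ c + z' • ∑ k ∈ t, phT ζ (d k)) := by
  funext J
  simp only [phT, Pi.smul_apply, Pi.add_apply, Finset.sum_apply, smul_eq_mul, ← Finset.mul_sum]
  ring

/-- **spin flip of `C5`.** -/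
theorem flipT_C5 (e : Fin 5) (s : Fin 2) :
    flipT (Equiv.swap 0 1) (C5 e s) = C5 e (Equiv.swap 0 1 s) := by
  rw [C5_eq, C5_eq, flipT_lin]
  simp only [flipT_S5]

/-- **spin flip of `C4`.** -/
theorem flipT_C4 : flipT (Equiv.swap 0 1) C4 = C4 := by
  rw [C4_eq, flipT_lin]
  simp only [flipT_S4]

/-- **spin phase of `C5`.** -/
theorem phT_C5 (ζ : Fin 2 → ℂ) (e : Fin 5) (s : Fin 2) :
    phT ζ (C5 e s) = (ζ 0 ^ 2 * ζ 1 ^ 2 * ζ s) • C5 e s := by
  rw [C5_eq, phT_lin]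
  simp only [phT_S5, ← Finset.smul_sum]
  rw [smul_comm (t5 : ℂ), ← smul_add, smul_comm]

/-- **spin phase of `C4`.** -/
theorem phT_C4 (ζ : Fin 2 → ℂ) : phT ζ C4 = (ζ 0 ^ 2 * ζ 1 ^ 2) • C4 := by
  rw [C4_eq, phT_lin]
  simp only [phT_S4, ← Finset.smul_sum]
  rw [smul_comm (t4 : ℂ), ← smul_add, smul_comm]

/-- **rotation of `C5`.** -/
theorem rotT_C5 (A : R3 ≃ₗᵢ[ℝ] R3) (j : Fin 3) (s : Fin 2) :
    rotT (Mrot A) (C5 (pl j) s) = ∑ k, (mat A j k : ℂ) • C5 (pl k) s := by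
  rw [C5_eq, rotT_smul, rotT_add, rotT_smul, rotT_sum, rotT_S5]
  simp only [rotT_S5]
  rw [pair_S5, rv_s A 1 (Or.inr rfl), rv_s A 1 (Or.inr rfl), rv_p, S5_sum3]
  simp only [S5_sum3, C5_eq, smul_add, Finset.smul_sum, Finset.sum_add_distrib, smul_smul]
  congr 1
  · exact Finset.sum_congr rfl fun k _ => by rw [mul_comm]
  · rw [Finset.sum_comm]
    refine Finset.sum_congr rfl fun k _ => Finset.sum_congr rfl fun l _ => ?_
    congr 1
    ring

end

end Vale.Agent.P363.H868
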