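import Vale.Agent.P363.H868.TenState
import Vale.Agent.P363.H868.TenRot
import Vale.Agent.P363.R2.h518.HypInst
import Vale.Agent.P363.R.B4.Main

/-! The symmetry hypotheses `SymHyp` of the B4 assembly for the ground tensors. -/

namespace Vale.Agent.P363.H868

open MeasureTheory Filter Topology
open Vale.Agent.P363.Stmt Vale.Agent.P363.R.Sob Vale.Agent.P363.H382
open Vale.Agent.P363.R.Top (orb dyson)
open Vale.Agent.P363.H979.CI (Ten SO C5 C4)
open Vale.Agent.P363.H95 (ofTen OneBody AntiT)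
open Vale.Agent.P363.H518 (corb oneBody stT T CT c4 c5 e4 e5)
open scoped ContDiff ENNReal ComplexConjugate

set_option linter.unusedSectionVars false

noncomputable section

theorem pl_eq (j : Fin 3) : pl j = j.succ.succ := by fin_cases j <;> rfl

theorem e5_eq (j : Fin 3) (s : Fin 2) :
    e5 (j, s) = toFS (ofTen oneBody (C5 j.succ.succ s) (H761.anti_C5 j.succ.succ s)) := by
  unfold e5
  rw [H518.T_apply]
  unfold stT c5
  rfl

theorem e4_eq : e4 () = toFS (ofTen oneBody C4 H761.anti_C4) := by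
  unfold e4
  rw [H518.T_apply]
  unfold stT c4
  rfl

theorem real_rot {N : ℕ} (A : R3 ≃ₗᵢ[ℝ] R3) : R.B4.Real N (rotF A) (rot A) where
  eq _ := rfl
  norm Ψ := normSq_rot A Ψ
  en lam Ψ := energy_pot_rot A lam Ψ

theorem real_flip {N : ℕ} (τ : Equiv.Perm (Fin 2)) : R.B4.Real N (flipF τ) (spinPerm τ) where
  eq _ := rfl
  norm Ψ := normSq_spinPerm τ Ψ
  en _ Ψ := energy_spinPerm τ _ Ψ

theorem real_phase {N : ℕ} (ζ : Fin 2 → ℂ) (h : ∀ a, ‖ζ a‖ = 1) :
    R.B4.Real N (phaseF ζ h) (phase ζ) where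
  eq _ := rfl
  norm Ψ := normSq_spinMul _ _ (norm_spinPhase h) Ψ
  en _ Ψ := energy_spinMul _ _ (norm_spinPhase h) _ Ψ

/-- the phase used: `1` for spin up, `-1` for spin down. -/
def zt : Fin 2 → ℂ := ![1, -1]

theorem norm_zt (a : Fin 2) : ‖zt a‖ = 1 := by fin_cases a <;> simp [zt]

theorem dyson_phase (Φ : ElectronState 4) (Ψ : ElectronState 5) (x : R3) :
    dyson (phase zt Φ) (phase zt Ψ) 1 x = - dyson Φ Ψ 1 x := by
  unfold dyson
  rw [← Finset.sum_neg_distrib]
  refine Finset.sum_congr rfl fun s _ => ?_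
  rw [← integral_neg]
  refine integral_congr_ae (Eventually.of_forall fun y => ?_)
  have h1 : (phase zt Φ).amp s y = spinPhase zt s * Φ.amp s y := rfl
  have h2 : (phase zt Ψ).amp (Fin.cons 1 s) (Fin.cons x y)
      = spinPhase zt (Fin.cons 1 s : Fin 5 → Fin 2) * Ψ.amp (Fin.cons 1 s) (Fin.cons x y) := rfl
  simp only [h1, h2, spinPhase_cons, map_mul]
  have h3 : conj (spinPhase zt s) * spinPhase zt s = 1 := by
    rw [mul_comm, Complex.mul_conj, Complex.normSq_eq_norm_sq, norm_spinPhase norm_zt]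
    norm_num
  have h4 : zt 1 = -1 := rfl
  rw [h4]
  linear_combination (-(conj (Φ.amp s y)) * Ψ.amp (Fin.cons 1 s) (Fin.cons x y)) * h3

/-- **The symmetry hypotheses.** -/
theorem symHyp : R.B4.SymHyp (e4 ()) e5 where
  rot4 A := by
    refine ⟨rotF A, real_rot A, ?_⟩
    rw [e4_eq]
    have := rotF_ofTen_one oneBody A (c := C4) H761.anti_C4 (d := C4) H761.anti_C4 1
      (by rw [rotT_C4, one_smul])
    rw [this, one_smul]
  rot5 A := by
    refine ⟨rotF A, real_rot A, fun j s => ?_⟩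
    rw [e5_eq]
    refine rotF_ofTen oneBody A (c := C5 j.succ.succ s) (H761.anti_C5 _ _)
      (fun k : Fin 3 => (mat A j k : ℂ)) (fun k => C5 k.succ.succ s) (fun k => H761.anti_C5 _ _) ?_
    have h := rotT_C5 A j s
    simpa only [pl_eq] using h
  flip5 := by
    refine ⟨flipF (Equiv.swap 0 1), spinPerm (Equiv.swap 0 1), real_flip _, fun j =>
      ⟨⟨1, ?_⟩, ⟨1, ?_⟩⟩⟩
    · rw [e5_eq, e5_eq]
      exact flipF_ofTen oneBody _ _ _ 1 (by rw [flipT_C5, one_smul]; rfl)
    · rw [e5_eq, e5_eq]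
      exact flipF_ofTen oneBody _ _ _ 1 (by rw [flipT_C5, one_smul]; rfl)
  mul := by
    refine ⟨phaseF zt norm_zt, phaseF zt norm_zt, phase zt, phase zt, real_phase _ _,
      real_phase _ _, ?_, fun j => ?_, fun j => ?_, fun Φ Ψ x => dyson_phase Φ Ψ x⟩
    · rw [e4_eq]
      have := phaseF_ofTen oneBody zt norm_zt (c := C4) H761.anti_C4 (d := C4) H761.anti_C4 1
        (by rw [phT_C4]; simp [zt])
      rw [this, one_smul]
    · rw [e5_eq]
      have := phaseF_ofTen oneBody zt norm_zt (c := C5 j.succ.succ 0) (H761.anti_C5 _ _)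
        (d := C5 j.succ.succ 0) (H761.anti_C5 _ _) 1 (by rw [phT_C5]; simp [zt])
      rw [this, one_smul]
    · rw [e5_eq]
      exact phaseF_ofTen oneBody zt norm_zt (c := C5 j.succ.succ 1) (H761.anti_C5 _ _)
        (d := C5 j.succ.succ 1) (H761.anti_C5 _ _) (-1) (by rw [phT_C5]; simp [zt])

end

end Vale.Agent.P363.H868
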