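import Vale.Agent.P363.H868.Sym
import Vale.Agent.P363.H868.TenAct
import Vale.Agent.P363.H95.OfTen
import Vale.Agent.P363.R2.h518.Star

/-! Action of the symmetries on the tensor states `ofTen c` in the form domain. -/

namespace Vale.Agent.P363.H868

open MeasureTheory Filter Topology
open Vale.Agent.P363.Stmt Vale.Agent.P363.R.Sob Vale.Agent.P363.H382
open Vale.Agent.P363.R.Top (orb)
open Vale.Agent.P363.H979.CI (Ten SO)
open Vale.Agent.P363.H95 (ofTen OneBody AntiT tp)
open Vale.Agent.P363.H518 (corb)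
open scoped ContDiff ENNReal ComplexConjugate

set_option linter.unusedSectionVars false

noncomputable section

variable {N : ℕ} {gu : Fin 5 → Fin 3 → R3 → ℂ}

theorem ofTen_amp (H : OneBody corb gu) (c : Ten N) (hc : AntiT c) (s : Fin N → Fin 2)
    (x : Conf N) : (ofTen H c hc).amp s x = tamp c s x := rfl

/-- relations between tensor states come from relations between tensors. -/
theorem toFS_ofTen_sum (H : OneBody corb gu) {ι : Type*} [Fintype ι] {c : Ten N}
    {Ψ : ElectronState N} (z : ι → ℂ) (d : ι → Ten N) (hd : ∀ k, AntiT (d k))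
    (hΨ : ∀ s, Ψ.amp s =ᵐ[volume] fun x => tamp c s x) (h : c = ∑ k, z k • d k) :
    toFS Ψ = ∑ k, z k • toFS (ofTen H (d k) (hd k)) := by
  rw [toFS_eq_sum_iff]
  intro s
  filter_upwards [hΨ s] with x hx
  rw [hx, h, tamp_sum]
  refine Finset.sum_congr rfl fun k _ => ?_
  rw [tamp_smul, ofTen_amp]

theorem rotF_ofTen (H : OneBody corb gu) (A : R3 ≃ₗᵢ[ℝ] R3) {ι : Type*} [Fintype ι] {c : Ten N}
    (hc : AntiT c) (z : ι → ℂ) (d : ι → Ten N) (hd : ∀ k, AntiT (d k))
    (h : rotT (Mrot A) c = ∑ k, z k • d k) :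
    rotF A (toFS (ofTen H c hc)) = ∑ k, z k • toFS (ofTen H (d k) (hd k)) := by
  rw [rotF, symF_toFS, toFS_eq_sum_iff]
  intro s
  refine Eventually.of_forall fun x => ?_
  rw [rot_amp, ofTen_amp, tamp_rot, h, tamp_sum]
  refine Finset.sum_congr rfl fun k _ => ?_
  rw [tamp_smul, ofTen_amp]

theorem rotF_ofTen_one (H : OneBody corb gu) (A : R3 ≃ₗᵢ[ℝ] R3) {c : Ten N} (hc : AntiT c)
    {d : Ten N} (hd : AntiT d) (z : ℂ) (h : rotT (Mrot A) c = z • d) :
    rotF A (toFS (ofTen H c hc)) = z • toFS (ofTen H d hd) := by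
  have := rotF_ofTen H A hc (fun _ : Unit => z) (fun _ => d) (fun _ => hd) (by simpa using h)
  simpa using this

theorem flipF_ofTen (H : OneBody corb gu) (τ : Equiv.Perm (Fin 2)) {c : Ten N} (hc : AntiT c)
    {d : Ten N} (hd : AntiT d) (z : ℂ) (h : flipT τ c = z • d) :
    flipF τ (toFS (ofTen H c hc)) = z • toFS (ofTen H d hd) := by
  have h1 : toFS (spinPerm τ (ofTen H c hc)) = ∑ _ : Unit, z • toFS (ofTen H d hd) := by
    rw [toFS_eq_sum_iff (Ψ := spinPerm τ (ofTen H c hc)) (fun _ : Unit => z) (fun _ => ofTen H d hd)]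
    intro s
    refine Eventually.of_forall fun x => ?_
    have e : (spinPerm τ (ofTen H c hc)).amp s x = tamp (flipT τ c) s x := rfl
    rw [e, h, tamp_smul]
    simp [ofTen_amp]
  rw [flipF, symF_toFS, h1]
  simp

theorem phaseF_ofTen (H : OneBody corb gu) (ζ : Fin 2 → ℂ) (hζ : ∀ a, ‖ζ a‖ = 1) {c : Ten N}
    (hc : AntiT c) {d : Ten N} (hd : AntiT d) (z : ℂ) (h : phT ζ c = z • d) :
    phaseF ζ hζ (toFS (ofTen H c hc)) = z • toFS (ofTen H d hd) := by
  have h1 : toFS (phase ζ (ofTen H c hc)) = ∑ _ : Unit, z • toFS (ofTen H d hd) := by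
    rw [toFS_eq_sum_iff (Ψ := phase ζ (ofTen H c hc)) (fun _ : Unit => z) (fun _ => ofTen H d hd)]
    intro s
    refine Eventually.of_forall fun x => ?_
    have e : (phase ζ (ofTen H c hc)).amp s x = spinPhase ζ s * tamp c s x := rfl
    rw [e, tamp_phase, h, tamp_smul]
    simp [ofTen_amp]
  rw [phaseF, symF_toFS, h1]
  simp

end

end Vale.Agent.P363.H868
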